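import Vale.Agent.P287T.Fa.Defs
import Vale.Agent.P287T.Cy.Eq

/-!
# Completing a presentation to a matrix factorization on the image of an idempotent
-/

set_option linter.unusedSectionVars false

open MvPolynomial Matrix

noncomputable section

namespace Vale.Agent.P287T.Gb

open Fa Cy P287Z.O P287Z.O.L

variable {ι κ μ ν : Type} [Fintype ι] [Fintype κ] [Fintype μ] [Fintype ν]
  {p : ι → ℤ} {q : κ → ℤ} {r : μ → ℤ} {s : ν → ℤ} {W : S6} {j : ℤ}

theorem mm_mul {a b c : ℤ} {g : Matrix μ κ S6} {f : Matrix κ ι S6} (hg : g ∈ MM q r a)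
    (hf : f ∈ MM p q b) (h : a + b = c) : g * f ∈ MM p r c := Fa.MM_mul hg hf h

theorem smul_canc (hW : W ≠ 0) {a b : Matrix κ ι S6} (h : W • a = W • b) : a = b :=
  Matrix.ext fun i l => mul_left_cancel₀ hW (congrFun (congrFun h i) l)

/-! ## Parity -/

section par

variable [DecidableEq ι] [DecidableEq κ]

/-- the projector to the generators `i` with `p i + a` even -/
def pe (p : ι → ℤ) (a : ℤ) : Matrix ι ι ℂ := diagonal fun i => if 2 ∣ p i + a then 1 else 0

theorem pe_blk (a : ℤ) : Blk p p (pe p a) := fun _ _ h => diagonal_apply_ne _ fun e => h (e ▸ rfl)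

theorem pe_pe (a : ℤ) : pe p a * pe p a = pe p a := by
  rw [pe, diagonal_mul_diagonal]
  exact congrArg diagonal (funext fun i => by split_ifs <;> simp)

theorem pe_add : pe p 0 + pe p 1 = 1 := by
  rw [pe, pe, diagonal_add, ← diagonal_one]
  exact congrArg diagonal (funext fun i => by split_ifs <;> first | omega | simp)

theorem pe_01 : pe p 0 * pe p 1 = 0 := by
  rw [← add_right_inj (pe p 0 * pe p 0), ← mul_add, pe_add, pe_pe, mul_one, add_zero]

theorem pe_10 : pe p 1 * pe p 0 = 0 := by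
  rw [← add_left_inj (pe p 1 * pe p 1), ← mul_add, pe_add, pe_pe, mul_one, zero_add]

theorem pe_comm {g : Matrix κ ι S6} (hg : g ∈ MM p q j) {a b : ℤ} (h : 2 ∣ a + b + j) :
    cM (pe q b) * g = g * cM (pe p a) := by
  refine Matrix.ext fun i l => ?_
  rw [pe, pe, cM, cM, diagonal_map C_0, diagonal_map C_0, diagonal_mul, mul_diagonal]
  by_cases k : 2 ∣ j + p l - q i
  · rw [mul_comm, if_congr (show 2 ∣ q i + b ↔ 2 ∣ p l + a by omega) rfl rfl]
  · rw [hga_odd_eq_zero (hg i l) k, mul_zero, zero_mul]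

theorem Blk.pe_comm {g : Matrix κ ι ℂ} (hg : Blk p q g) (a : ℤ) : pe q a * g = g * pe p a := by
  refine Matrix.ext fun i l => ?_
  rw [pe, pe, diagonal_mul, mul_diagonal]
  by_cases k : q i = p l
  · rw [mul_comm, k]
  · rw [hg i l k, mul_zero, zero_mul]

end par

/-! ## Polynomial idempotents -/

/-- the constant term -/
def c0 (g : Matrix κ ι S6) : Matrix κ ι ℂ := g.map constantCoeff

theorem c0_mul (a : Matrix μ κ S6) (b : Matrix κ ι S6) : c0 (a * b) = c0 a * c0 b := Matrix.map_mul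

theorem c0_cM (a : Matrix κ ι ℂ) : c0 (cM a) = a := Matrix.ext fun _ _ => constantCoeff_C _ _

theorem c0_add (a b : Matrix κ ι S6) : c0 (a + b) = c0 a + c0 b := Matrix.map_add _ (map_add _) _ _

theorem c0_sub (a b : Matrix κ ι S6) : c0 (a - b) = c0 a - c0 b := Matrix.map_sub _ (map_sub _) _ _

theorem c0_one [DecidableEq ι] : c0 (1 : Matrix ι ι S6) = 1 := by rw [← cM_one, c0_cM]

theorem c0_blk {g : Matrix κ ι S6} (h : g ∈ MM p q 0) : Blk p q (c0 g) := fun i l k => by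
  by_contra e
  have := hg_iff.1 (h i l) 0 (mem_support_iff.2 e)
  rw [map_zero] at this
  omega

section pol

variable [DecidableEq ι]

theorem pow_zero_of {n : Matrix ι ι S6} (h : n ∈ MM p p 0) (h0 : c0 n = 0) (k : ℕ) (i l : ι)
    (hk : p l - p i < k) : (n ^ k) i l = 0 := by
  induction k generalizing l with
  | zero => exact one_apply_ne fun e => by simp [e] at hk
  | succ k ih =>
    rw [pow_succ, mul_apply]
    refine Finset.sum_eq_zero fun a _ => ?_
    by_cases e : p a - p i < k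
    · rw [ih a e, zero_mul]
    refine mul_eq_zero_of_right _ (MvPolynomial.ext _ _ fun m => ?_)
    by_contra u
    have := hg_iff.1 (h a l) m (mem_support_iff.2 u)
    obtain rfl : m = 0 := (Finsupp.degree_eq_zero_iff m).1 (by omega)
    exact u (congrFun (congrFun h0 a) l)

theorem pow_mm {n : Matrix ι ι S6} (h : n ∈ MM p p 0) (k : ℕ) : n ^ k ∈ MM p p 0 := by
  induction k with
  | zero => exact pow_zero n ▸ Fa.MM_one
  | succ k ih => exact pow_succ n k ▸ mm_mul ih h rfl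

/-- the matrix which conjugates `E` to its constant term -/
def cj (E : Matrix ι ι S6) : Matrix ι ι S6 := E * cM (c0 E) + (1 - E) * (1 - cM (c0 E))

/-- its inverse -/
def ci (p : ι → ℤ) (E : Matrix ι ι S6) : Matrix ι ι S6 :=
  ∑ k ∈ Finset.range (∑ i, ∑ l, (p l - p i).toNat + 1), (1 - cj E) ^ k

variable {E : Matrix ι ι S6} (h : E ∈ MM p p 0) (hE : E * E = E)
include h

theorem cj_mm : cj E ∈ MM p p 0 :=
  add_mem (mm_mul h (c0_blk h).mm rfl)
    (mm_mul (sub_mem Fa.MM_one h) (sub_mem Fa.MM_one (c0_blk h).mm) rfl)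

theorem ci_mm : ci p E ∈ MM p p 0 :=
  sum_mem fun k _ => pow_mm (sub_mem Fa.MM_one (cj_mm h)) k

include hE

omit h in
theorem c0_idem : c0 E * c0 E = c0 E := by rw [← c0_mul, hE]

theorem cj_nil : (1 - cj E) ^ (∑ i, ∑ l, (p l - p i).toNat + 1) = 0 := by
  refine Matrix.ext fun i l => pow_zero_of (sub_mem Fa.MM_one (cj_mm h)) ?_ _ i l ?_
  · simp only [cj, c0_sub, c0_add, c0_mul, c0_one, c0_cM, mul_sub, sub_mul, c0_idem hE, mul_one,
      one_mul]
    abel
  · have := (Finset.single_le_sum (f := fun l => (p l - p i).toNat) (fun _ _ => Nat.zero_le _)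
      (Finset.mem_univ l)).trans (Finset.single_le_sum (f := fun i => ∑ l, (p l - p i).toNat)
        (fun _ _ => Nat.zero_le _) (Finset.mem_univ i))
    omega

theorem ci_cj : ci p E * cj E = 1 := by
  have := geom_sum_mul_neg (1 - cj E) (∑ i, ∑ l, (p l - p i).toNat + 1)
  rwa [sub_sub_cancel, cj_nil h hE, sub_zero] at this

theorem cj_ci : cj E * ci p E = 1 := mul_eq_one_comm.1 (ci_cj h hE)

theorem ci_conj : ci p E * E * cj E = cM (c0 E) := by
  have e : E * cj E = cj E * cM (c0 E) := by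
    simp only [cj, mul_add, add_mul, mul_sub, sub_mul, mul_one, one_mul, ← mul_assoc, hE]
    simp only [mul_assoc, ← cM_mul, c0_idem hE]
    abel
  rw [mul_assoc, e, ← mul_assoc, ci_cj h hE, one_mul]

end pol

/-! ## Solutions -/

/-- `ψ` completes `φ` to a factorization on the images of `e` and `E` -/
structure Sol (W : S6) (p : ι → ℤ) (q : κ → ℤ) (e : Matrix ι ι S6) (φ : Matrix ι κ S6)
    (ψ : Matrix κ ι S6) (E : Matrix κ κ S6) : Prop where
  dψ : ψ ∈ MM p q 3
  dE : E ∈ MM q q 0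
  l : φ * ψ = W • e
  r : ψ * φ = W • E
  e : ψ * e = ψ

namespace Sol

variable {e : Matrix ι ι S6} {φ : Matrix ι κ S6} {ψ ψ' : Matrix κ ι S6} {E E' : Matrix κ κ S6}

theorem aff (h : Sol W p q e φ ψ E) (h' : Sol W p q e φ ψ' E') {a b : ℂ} (hab : a + b = 1) :
    Sol W p q e φ (a • ψ + b • ψ') (a • E + b • E') :=
  ⟨add_mem (Submodule.smul_mem _ _ h.dψ) (Submodule.smul_mem _ _ h'.dψ),
    add_mem (Submodule.smul_mem _ _ h.dE) (Submodule.smul_mem _ _ h'.dE), by
      rw [Matrix.mul_add, Matrix.mul_smul, Matrix.mul_smul, h.l, h'.l, ← add_smul, hab, one_smul],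
    by rw [Matrix.add_mul, Matrix.smul_mul, Matrix.smul_mul, h.r, h'.r, smul_add, smul_comm a,
      smul_comm b],
    by rw [Matrix.add_mul, Matrix.smul_mul, Matrix.smul_mul, h.e, h'.e]⟩

variable (h : Sol W p q e φ ψ E)
include h

/-- transport along maps whose compositions are `P₀` and `P₁` -/
theorem tr {a₀ : Matrix μ ι S6} {b₀ : Matrix ι μ S6} {a₁ : Matrix ν κ S6} {b₁ : Matrix κ ν S6}
    (h1 : b₀ ∈ MM r p 0) (h2 : a₁ ∈ MM q s 0) (h3 : b₁ ∈ MM s q 0)
    (k1 : a₀ * φ * (b₁ * a₁) = a₀ * φ) (k2 : a₁ * ψ * (b₀ * a₀) = a₁ * ψ) :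
    Sol W r s (a₀ * e * b₀) (a₀ * φ * b₁) (a₁ * ψ * b₀) (a₁ * E * b₁) := by
  refine ⟨mm_mul (mm_mul h2 h.dψ rfl) h1 rfl, mm_mul (mm_mul h2 h.dE rfl) h3 rfl, ?_, ?_, ?_⟩
  · rw [Matrix.mul_assoc a₁, ← Matrix.mul_assoc, Matrix.mul_assoc _ b₁, k1, ← Matrix.mul_assoc,
      Matrix.mul_assoc a₀, h.l, Matrix.mul_smul, Matrix.smul_mul]
  · rw [Matrix.mul_assoc a₀, ← Matrix.mul_assoc, Matrix.mul_assoc _ b₀, k2, ← Matrix.mul_assoc,
      Matrix.mul_assoc a₁, h.r, Matrix.mul_smul, Matrix.smul_mul]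
  · rw [Matrix.mul_assoc a₀, ← Matrix.mul_assoc, Matrix.mul_assoc _ b₀, k2, ← Matrix.mul_assoc,
      Matrix.mul_assoc a₁, h.e]

variable (hW : W ≠ 0) (he : e * φ = φ)
include hW

theorem Eψ : E * ψ = ψ := smul_canc hW (by
  rw [← Matrix.smul_mul, ← h.r, Matrix.mul_assoc, h.l, Matrix.mul_smul, h.e])

theorem inj {x y : Matrix κ μ S6} (hx : E * x = x) (hy : E * y = y) (k : φ * x = φ * y) : x = y :=
  smul_canc hW (by rw [← hx, ← hy, ← Matrix.smul_mul, ← Matrix.smul_mul, ← h.r, Matrix.mul_assoc,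
    Matrix.mul_assoc, k])

include he

theorem φE : φ * E = φ := smul_canc hW (by
  rw [← Matrix.mul_smul, ← h.r, ← Matrix.mul_assoc, h.l, Matrix.smul_mul, he])

theorem EE : E * E = E := smul_canc hW (by
  rw [← Matrix.smul_mul, ← h.r, Matrix.mul_assoc, h.φE hW he])

end Sol

theorem mm_blocks {a : Matrix μ ι S6} {b : Matrix μ κ S6} {c : Matrix ν ι S6} {d : Matrix ν κ S6}
    (ha : a ∈ MM p r j) (hb : b ∈ MM q r j) (hc : c ∈ MM p s j) (hd : d ∈ MM q s j) :
    fromBlocks a b c d ∈ MM (Sum.elim p q) (Sum.elim r s) j := by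
  rintro (i | i) (l | l)
  exacts [ha i l, hb i l, hc i l, hd i l]

theorem cM_blocks (a : Matrix ι ι ℂ) (d : Matrix κ κ ℂ) :
    cM (fromBlocks a 0 0 d) = fromBlocks (cM a) 0 0 (cM d) := by
  rw [cM, fromBlocks_map, ← cM_zero, ← cM_zero]
  rfl

/-- the factorization -/
theorem Sol.isPF {e : Matrix ι ι ℂ} {f : Matrix κ κ ℂ} {φ : Matrix ι κ S6} {ψ : Matrix κ ι S6}
    (h : Sol W p q (cM e) φ ψ (cM f)) (hW : W ≠ 0) (he : cM e * φ = φ) (hφ : φ ∈ MM q p 3)
    (be : Blk p p e) (bf : Blk q q f) (ee : e * e = e) :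
    IsPF W (Sum.elim p q) (fromBlocks e 0 0 f) (fromBlocks 0 φ ψ 0) := by
  have ff : f * f = f := by rw [← c0_cM (f * f), cM_mul, h.EE hW he, c0_cM]
  refine ⟨?_, by simp [fromBlocks_multiply, ee, ff],
    mm_blocks (zero_mem _) hφ h.dψ (zero_mem _), ?_, ?_, ?_⟩
  · rintro (i | i) (l | l) k
    exacts [be i l k, rfl, rfl, bf i l k]
  · simp [cM_blocks, fromBlocks_multiply, he, h.Eψ hW]
  · simp [cM_blocks, fromBlocks_multiply, h.e, h.φE hW he]
  · simp [cM_blocks, fromBlocks_multiply, h.l, h.r, fromBlocks_smul]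

end Vale.Agent.P287T.Gb
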