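import Mathlib.RingTheory.Flat.Basic
import Mathlib.RingTheory.TensorProduct.IsBaseChangePi
import Mathlib.RingTheory.TensorProduct.MvPolynomial
import Mathlib.LinearAlgebra.TensorProduct.Quotient
import Mathlib.Data.Matrix.ColumnRowPartitioned

/-!
# Descent of solutions of linear systems along flat maps
-/

set_option linter.unusedSectionVars false

open TensorProduct MvPolynomial Matrix

noncomputable section

namespace Vale.Agent.P287T.Gb

variable {B D : Type} [CommRing B] [CommRing D] [Algebra B D]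

theorem desc [Module.Flat B D] {M M' N N' K : Type} [AddCommGroup M] [AddCommGroup M']
    [AddCommGroup N] [AddCommGroup N'] [Module B M] [Module B M'] [Module B N] [Module B N']
    [Module D N] [Module D N'] [IsScalarTower B D N] [IsScalarTower B D N'] {f : M →ₗ[B] N}
    {f' : M' →ₗ[B] N'} (hf : IsBaseChange D f) (hf' : IsBaseChange D f') (L : M →ₗ[B] M')
    (L' : N →ₗ[D] N') (hL : ∀ x, L' (f x) = f' (L x)) {w : M'} {y : N} (hy : L' y = f' w)
    [CommRing K] [Nontrivial K] (φ : D →+* K) :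
    ∃ b u, φ (algebraMap B D b) ≠ 0 ∧ L u = b • w := by
  let R := LinearMap.range L
  let J : Ideal B := R.comap (LinearMap.toSpanSingleton B M' w)
  let χ := hf'.lift (TensorProduct.mk B D (M' ⧸ R) 1 ∘ₗ R.mkQ)
  have h1 : ∀ x, χ (L' x) = 0 := fun x => by
    induction x using hf.inductionOn with
    | zero => rw [map_zero, map_zero]
    | tmul x =>
      rw [hL, hf'.lift_eq, LinearMap.comp_apply, R.mkQ_apply,
        (Submodule.Quotient.mk_eq_zero R).2 ⟨x, rfl⟩, map_zero]
    | smul s x h => rw [map_smul, map_smul, h, smul_zero]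
    | add x y h h' => rw [map_add, map_add, h, h', add_zero]
  have h2 : (1 : D) ⊗ₜ[B] Ideal.Quotient.mk J 1 = 0 := by
    refine Module.Flat.lTensor_preserves_injective_linearMap (M := D)
      (J.mapQ R (LinearMap.toSpanSingleton B M' w) le_rfl)
      (LinearMap.ker_eq_bot.1 (Submodule.ker_mapQ _ _ _ _ |>.trans (Submodule.mkQ_map_self _)))
      ?_
    have := h1 y
    rw [hy, hf'.lift_eq] at this
    rw [map_zero, LinearMap.lTensor_tmul, ← this]
    exact congrArg (fun x => (1 : D) ⊗ₜ[B] R.mkQ x) (one_smul B w)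
  have h3 := congrArg (tensorQuotEquivQuotSMul D J) h2
  rw [tensorQuotEquivQuotSMul_tmul_mk, map_zero, Submodule.Quotient.mk_eq_zero, one_smul] at h3
  by_contra h
  refine one_ne_zero (φ.map_one.symm.trans (Submodule.smul_induction_on (p := fun x => φ x = 0) h3
    (fun b hb x _ => ?_) fun x y hx hy => by rw [map_add, hx, hy, add_zero]))
  obtain ⟨u, hu⟩ := hb
  rw [Algebra.smul_def, map_mul, not_not.1 fun k => h ⟨b, u, k, hu⟩, zero_mul]

attribute [local instance] MvPolynomial.algebraMvPolynomial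

variable {σ ι κ : Type} [Fintype ι] [Fintype κ] [DecidableEq ι]

variable (B D σ ι κ) in
/-- change of coefficients -/
def mL : Matrix κ ι (MvPolynomial σ B) →ₗ[B] Matrix κ ι (MvPolynomial σ D) :=
  ((IsScalarTower.toAlgHom B (MvPolynomial σ B) (MvPolynomial σ D)).toLinearMap.compLeft ι).compLeft
    κ

theorem mL_apply (g : Matrix κ ι (MvPolynomial σ B)) :
    mL B D σ ι κ g = g.map (MvPolynomial.map (algebraMap B D)) := rfl

omit [DecidableEq ι] in
theorem mL_bc : IsBaseChange D (mL B D σ ι κ) :=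
  ((Algebra.IsPushout.out (R := B) (S := D) (R' := MvPolynomial σ B)
    (S' := MvPolynomial σ D)).finitePow ι).finitePow κ

/-- the linear system -/
def sys {R : Type} [CommRing R] (w : MvPolynomial σ R) (φ : Matrix ι κ (MvPolynomial σ R)) :
    Matrix κ ι (MvPolynomial σ R) × Matrix κ κ (MvPolynomial σ R) →ₗ[R]
      Matrix ι ι (MvPolynomial σ R) × Matrix κ κ (MvPolynomial σ R) where
  toFun u := (φ * u.1, u.1 * φ - w • u.2)
  map_add' u v := by
    simp only [Prod.fst_add, Prod.snd_add, Matrix.mul_add, Matrix.add_mul, smul_add, Prod.mk_add_mk,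
      add_sub_add_comm]
  map_smul' c u := by
    simp only [Prod.smul_fst, Prod.smul_snd, Matrix.mul_smul, Matrix.smul_mul, RingHom.id_apply,
      Prod.smul_mk, smul_sub, smul_comm c w]

theorem map_smul_mat {R S : Type} [CommRing R] [CommRing S] (f : R →+* S) {α β : Type} (w : R)
    (g : Matrix α β R) : (w • g).map f = f w • g.map f := Matrix.ext fun _ _ => map_mul f _ _

theorem C_smul_mat {R : Type} [CommRing R] {α β : Type} (b : R)
    (g : Matrix α β (MvPolynomial σ R)) : (C b : MvPolynomial σ R) • g = b • g :=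
  Matrix.ext fun _ _ => C_mul'

/-- **Descent of the completion to a factorization.** -/
theorem desc_sol [Module.Flat B D] {K : Type} [CommRing K] [Nontrivial K] (χ : D →+* K)
    (w : MvPolynomial σ B) (φ : Matrix ι κ (MvPolynomial σ B)) {ψ : Matrix κ ι (MvPolynomial σ D)}
    {E : Matrix κ κ (MvPolynomial σ D)}
    (h1 : φ.map (MvPolynomial.map (algebraMap B D)) * ψ =
      MvPolynomial.map (algebraMap B D) w • (1 : Matrix ι ι (MvPolynomial σ D)))
    (h2 : ψ * φ.map (MvPolynomial.map (algebraMap B D)) = MvPolynomial.map (algebraMap B D) w • E) :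
    ∃ (b : B) (ψ' : Matrix κ ι (MvPolynomial σ B)) (E' : Matrix κ κ (MvPolynomial σ B)),
      χ (algebraMap B D b) ≠ 0 ∧ φ * ψ' = (C b * w) • (1 : Matrix ι ι (MvPolynomial σ B)) ∧
        ψ' * φ = w • E' := by
  obtain ⟨b, u, k1, k2⟩ := desc (mL_bc.prodMap _ _ mL_bc) (mL_bc.prodMap _ _ mL_bc) (sys w φ)
    (sys (MvPolynomial.map (algebraMap B D) w) (φ.map (MvPolynomial.map (algebraMap B D))))
    (fun x => Prod.ext Matrix.map_mul.symm (by
      simp only [sys, LinearMap.coe_mk, AddHom.coe_mk, LinearMap.prodMap_apply, map_sub, mL_apply,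
        map_smul_mat, Matrix.map_mul])) (w := (w • 1, 0)) (y := (ψ, E))
    (Prod.ext (h1.trans (by
      simp only [LinearMap.prodMap_apply, mL_apply, map_smul_mat,
        Matrix.map_one _ (map_zero _) (map_one _)]))
      ((sub_eq_zero.2 h2).trans (map_zero (mL B D σ κ κ)).symm)) χ
  exact ⟨b, u.1, u.2, k1, (congrArg Prod.fst k2).trans (by rw [mul_smul, C_smul_mat]; rfl),
    sub_eq_zero.1 ((congrArg Prod.snd k2).trans (smul_zero b))⟩

variable {R : Type} [CommRing R] {τ μ : Type} [Fintype τ] [Fintype μ] [DecidableEq τ]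

theorem sol_of {w : R} {φ : Matrix ι κ R} {d : Matrix τ τ R} {α : Matrix τ ι R} {α' : Matrix τ κ R}
    {β : Matrix ι τ R} {β' : Matrix κ τ R} {θ j : Matrix κ ι R} {ρ : Matrix ι ι R}
    {ρ' : Matrix ι κ R} (hd : d * d = w • (1 : Matrix τ τ R)) (c1 : α * φ = d * α')
    (c2 : β * d = φ * β') (c3 : β * α - 1 = φ * θ + ρ) (c4 : ρ * φ = w • ρ')
    (hj : φ * j = w • (1 : Matrix ι ι R)) :
    φ * (β' * d * α - w • θ - j * ρ) = w • (1 : Matrix ι ι R) ∧
      (β' * d * α - w • θ - j * ρ) * φ = w • (β' * α' - θ * φ - j * ρ') := by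
  constructor
  · rw [Matrix.mul_sub, Matrix.mul_sub, ← Matrix.mul_assoc, ← Matrix.mul_assoc, ← Matrix.mul_assoc,
      ← c2, hj, Matrix.mul_assoc β, hd, Matrix.mul_smul, Matrix.mul_smul, Matrix.smul_mul,
      Matrix.smul_mul, Matrix.mul_one, Matrix.one_mul, ← smul_sub, ← smul_sub, sub_sub, ← c3,
      sub_sub_cancel]
  · rw [Matrix.sub_mul, Matrix.sub_mul, Matrix.mul_assoc, c1, Matrix.mul_assoc,
      ← Matrix.mul_assoc d, hd, Matrix.mul_assoc j, c4, Matrix.smul_mul, Matrix.smul_mul,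
      Matrix.mul_smul, Matrix.mul_smul, Matrix.one_mul, smul_sub, smul_sub]

/-- a presentation over the hypersurface ring as a presentation over the polynomial ring -/
def pc (w : R) (δ : Matrix ι κ R) : Matrix ι (κ ⊕ ι) R := fromCols δ (w • (1 : Matrix ι ι R))

theorem raw {w : R} {d s₀ s₁ c₅ : Matrix τ τ R} (hd : d * d = w • (1 : Matrix τ τ R))
    {δ₀ : Matrix μ ι R} {δ₁ : Matrix ι κ R} {α₁ : Matrix τ ι R} {α₂ c₁ : Matrix τ κ R}
    {β₁ c₂ : Matrix ι τ R} {β₂ : Matrix κ τ R} {t₀ : Matrix ι μ R} {t₁ : Matrix κ ι R}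
    {c₃ : Matrix ι ι R} {c₄ : Matrix μ κ R} (e1 : d * α₂ = α₁ * δ₁ + w • c₁)
    (e2 : δ₁ * β₂ = β₁ * d + w • c₂) (e3 : β₁ * α₁ - 1 = δ₁ * t₁ + t₀ * δ₀ + w • c₃)
    (e4 : δ₀ * δ₁ = 0 + w • c₄) (e5 : α₁ * β₁ - 1 = d * s₁ + s₀ * d + w • c₅) :
    α₁ * pc w δ₁ = d * fromCols (α₂ - d * c₁) (d * α₁) ∧
      β₁ * d = pc w δ₁ * fromRows β₂ (-c₂) ∧
      β₁ * α₁ - 1 = pc w δ₁ * fromRows t₁ c₃ + t₀ * δ₀ ∧
      t₀ * δ₀ * pc w δ₁ = w • fromCols (t₀ * c₄) (t₀ * δ₀) ∧
      α₁ * β₁ - 1 = d * (s₁ + d * c₅) + s₀ * d := by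
  have dd : ∀ {σ : Type} (x : Matrix τ σ R), d * (d * x) = w • x := fun x => by
    rw [← Matrix.mul_assoc, hd, Matrix.smul_mul, Matrix.one_mul]
  unfold pc
  refine ⟨?_, ?_, ?_, ?_, ?_⟩
  · rw [mul_fromCols, mul_fromCols, Matrix.mul_sub, dd, dd, e1, add_sub_cancel_right,
      Matrix.mul_smul, Matrix.mul_one]
  · rw [fromCols_mul_fromRows, e2, Matrix.smul_mul, Matrix.one_mul, smul_neg, add_neg_cancel_right]
  · rw [fromCols_mul_fromRows, e3, Matrix.smul_mul, Matrix.one_mul, add_right_comm]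
  · rw [mul_fromCols, Matrix.mul_assoc, e4, zero_add, Matrix.mul_smul, Matrix.mul_smul,
      Matrix.mul_one]
    ext i (j | j) <;> rfl
  · rw [e5, Matrix.mul_add, dd, add_right_comm]

theorem cols_j (w : R) (δ : Matrix ι κ R) :
    pc w δ * fromRows 0 1 = w • (1 : Matrix ι ι R) := by
  rw [pc, fromCols_mul_fromRows, Matrix.mul_zero, Matrix.mul_one, zero_add]

theorem cols_map {S : Type} [CommRing S] (f : R →+* S) (w : R) (δ : Matrix ι κ R) :
    (pc w δ).map f = pc (f w) (δ.map f) := by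
  rw [pc, pc, fromCols_map, map_smul_mat, Matrix.map_one _ (map_zero f) (map_one f)]

end Vale.Agent.P287T.Gb
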