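import Vale.Agent.P287T.Gb.Out
import Vale.Agent.P287T.Psi.St

/-!
# The global family on the surface
-/

namespace Vale.Agent.P287T.Psi

open P287T.Cy P287T.Rr P287T.Au

theorem cu_ne {W : S6} (c : Cu W) : W ≠ 0 := fun e => by
  have := congrFun (c.sm 1 fun j => by simp [e]) 0
  simp at this

/-- **GLOB** -/
theorem glob_hol {W : S6} (c : Cu W) (C : Cf W) (h : HasOut C) : ∃ G : Gf C, G.U.Hol :=
  let ⟨U, h1, h2⟩ := Gb.exists_fm (G3.hg_of_isHomogeneous c.hom) (cu_ne c) h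
  ⟨⟨U, h1⟩, h2⟩

theorem stGlob_of (h : ∀ (W : S6) (c : Cu W) (C : Cf W) (G : Gf C), G.U.Hol → G.Typ c) : StGlob :=
  fun W c C k => let ⟨G, hG⟩ := glob_hol c C k; ⟨G, h W c C G hG⟩

end Vale.Agent.P287T.Psi
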