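import Vale.Agent.P287T.Gb.Alg

/-!
# Stable equivalences of cokernels give homotopy equivalences of the fibres
-/

set_option linter.unusedSectionVars false

open MvPolynomial Matrix

noncomputable section

namespace Vale.Agent.P287T.Gb

open Fa Cy P287Z.O P287Z.O.L

variable {ι κ μ ν τ : Type} [Fintype ι] [Fintype κ] [Fintype μ] [Fintype ν] [Fintype τ]
  {p : ι → ℤ} {q : κ → ℤ} {r : μ → ℤ} {s : ν → ℤ} {t : τ → ℤ} {W : S6} {j : ℤ} [DecidableEq τ]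

/-- the factorization `D` on the image of `E` is homotopy equivalent to `d` -/
def PE (q : κ → ℤ) (E D : Matrix κ κ S6) (t : τ → ℤ) (d : Matrix τ τ S6) : Prop :=
  ∃ F ∈ ZZ q D t d 0, ∃ G ∈ ZZ t d q D 0, F * E = F ∧ E * G = G ∧
    G * F - E ∈ BB q D q D 0 ∧ F * G - 1 ∈ BB t d t d 0

theorem PE.he [DecidableEq μ] {e : Matrix κ κ ℂ} {D : Matrix κ κ S6} {d : Matrix τ τ S6}
    (h : PE q (cM e) D t d) (hD : IsPF W q e D) {a : Matrix μ κ ℂ} {b : Matrix κ μ ℂ}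
    (k : Spl q e r a b) : HE r (cM a * D * cM b) t d := by
  obtain ⟨F, hF, G, hG, k1, -, ⟨H, hH, k3⟩, k4⟩ := h
  refine ⟨F * cM b, ⟨mm_mul hF.1 k.bb.mm rfl, ?_⟩, cM a * G, ⟨mm_mul k.ba.mm hG.1 rfl, ?_⟩,
    ⟨cM a * H * cM b, mm_mul (mm_mul (b := 0 - 3) k.ba.mm hH rfl) k.bb.mm (by rfl), ?_⟩, ?_⟩
  · rw [Matrix.mul_assoc F, k.b_d hD, ← Matrix.mul_assoc, ← Matrix.mul_assoc, hF.2]
  · rw [← Matrix.mul_assoc, k.a_d hD, Matrix.mul_assoc, Matrix.mul_assoc, hG.2]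
  · have ba : ∀ x : Matrix κ μ S6, cM b * (cM a * x) = cM e * x := fun x => by
      rw [← Matrix.mul_assoc, k.ba']
    have := congrArg (cM a * · * cM b) k3
    simp only [Matrix.mul_add, Matrix.add_mul, Matrix.mul_sub, Matrix.sub_mul, Matrix.mul_assoc,
      k.eb, k.ab] at this
    simp only [Matrix.mul_assoc, ba, this]
    rw [← Matrix.mul_assoc D (cM e), hD.de, ← Matrix.mul_assoc (cM e), hD.ed]
  · rwa [Matrix.mul_assoc, ← Matrix.mul_assoc (cM b), k.ba', ← Matrix.mul_assoc, k1]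

theorem mm_cols {a : Matrix μ ι S6} {b : Matrix μ κ S6} (ha : a ∈ MM p r j) (hb : b ∈ MM q r j) :
    fromCols a b ∈ MM (Sum.elim p q) r j := by
  rintro i (l | l)
  exacts [ha i l, hb i l]

theorem mm_rows {a : Matrix ι μ S6} {b : Matrix κ μ S6} (ha : a ∈ MM r p j) (hb : b ∈ MM r q j) :
    fromRows a b ∈ MM r (Sum.elim p q) j := by
  rintro (i | i) l
  exacts [ha i l, hb i l]

theorem mf_canc (hW : W ≠ 0) {d : Matrix τ τ S6} (hd : IsMF W t d) {x y : Matrix τ μ S6}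
    (h : d * x = d * y) : x = y := smul_canc hW (by
  rw [← Matrix.one_mul x, ← Matrix.one_mul y, ← Matrix.smul_mul, ← Matrix.smul_mul, ← hd.sq,
    Matrix.mul_assoc, Matrix.mul_assoc, h])

theorem Sol.toPE {e : Matrix ι ι S6} {φ : Matrix ι κ S6} {ψ : Matrix κ ι S6} {E : Matrix κ κ S6}
    (h : Sol W p q e φ ψ E) (hW : W ≠ 0) (he : e * φ = φ) {d : Matrix τ τ S6} (hd : IsMF W t d)
    {α : Matrix τ ι S6} {α' : Matrix τ κ S6} {β : Matrix ι τ S6} {β' : Matrix κ τ S6}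
    {θ : Matrix κ ι S6} {ρ : Matrix ι κ S6} {u u' π : Matrix τ τ S6}
    (d1 : α ∈ MM p t 0) (d2 : α' ∈ MM q t 0) (d3 : β ∈ MM t p 0) (d4 : β' ∈ MM t q 0)
    (d5 : θ ∈ MM p q (-3)) (d6 : ρ ∈ MM q p (-3)) (d7 : u ∈ MM t t (-3)) (d8 : u' ∈ MM t t (-3))
    (c1 : α * φ = d * α') (c2 : β * d = φ * β') (h1 : β * α - e = φ * θ + ρ * ψ)
    (h2 : α * β - π = d * u + u' * d) (hπ : π * d = d * (1 - π)) (e1 : α * e = α) (e2 : e * β = β)
    (e3 : e * ρ = ρ) (z1 : β * α' = 0) (z2 : β' * α = 0) :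
    PE (Sum.elim p q) (fromBlocks e 0 0 E) (fromBlocks 0 φ ψ 0) t d := by
  have EE := h.EE hW he
  have φE := h.φE hW he
  have φE' : ∀ {σ : Type} (x : Matrix κ σ S6), φ * (E * x) = φ * x := fun x => by
    rw [← Matrix.mul_assoc, φE]
  have EE' : ∀ {σ : Type} (x : Matrix κ σ S6), E * (E * x) = E * x := fun x => by
    rw [← Matrix.mul_assoc, EE]
  have dd : ∀ {σ : Type} (x : Matrix τ σ S6), d * (d * x) = W • x := fun x => by
    rw [← Matrix.mul_assoc, hd.sq, Matrix.smul_mul, Matrix.one_mul]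
  have k1 : d * α = α' * ψ := mf_canc hW hd (by
    rw [dd, ← Matrix.mul_assoc, ← c1, Matrix.mul_assoc, h.l, Matrix.mul_smul, e1])
  have k2 : ψ * β = E * β' * d := h.inj hW (by rw [← Matrix.mul_assoc, h.Eψ hW])
    (by rw [Matrix.mul_assoc, EE']) (by
      rw [← Matrix.mul_assoc, h.l, Matrix.smul_mul, e2, Matrix.mul_assoc, φE', ← Matrix.mul_assoc,
        ← c2, Matrix.mul_assoc, hd.sq, Matrix.mul_smul, Matrix.mul_one])
  have k3 : E * β' * (α' * E) - E = ψ * (ρ * E) + E * θ * φ := h.inj hW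
    (by simp only [Matrix.mul_sub, Matrix.mul_assoc, EE', EE])
    (by rw [Matrix.mul_add, ← Matrix.mul_assoc E ψ, h.Eψ hW, Matrix.mul_assoc E θ, EE']) (by
      have := congrArg (· * φ) h1
      simp only [Matrix.sub_mul, Matrix.add_mul, Matrix.mul_assoc, he, h.r, c1] at this
      rw [Matrix.mul_sub, Matrix.mul_add, Matrix.mul_assoc E, Matrix.mul_assoc E, φE', φE', φE,
        ← Matrix.mul_assoc φ ψ, h.l, Matrix.smul_mul, ← Matrix.mul_assoc e, e3, add_comm,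
        ← Matrix.mul_smul, ← this, ← Matrix.mul_assoc φ, ← c2, Matrix.mul_assoc β,
        ← Matrix.mul_assoc d, ← c1, Matrix.mul_assoc α, φE])
  have k4 : α' * E * (E * β') - (1 - π) = u * d + d * u' := mf_canc hW hd (by
    rw [Matrix.mul_sub, ← hπ, Matrix.mul_assoc α', ← Matrix.mul_assoc d, ← c1, Matrix.mul_assoc α,
      φE', φE', ← c2, ← Matrix.mul_assoc, ← Matrix.sub_mul, h2, Matrix.mul_add, dd, Matrix.add_mul,
      Matrix.mul_assoc u', hd.sq, Matrix.mul_smul, Matrix.mul_one, Matrix.mul_assoc])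
  refine ⟨fromCols α (α' * E), ⟨mm_cols d1 (mm_mul d2 h.dE rfl), ?_⟩, fromRows β (E * β'),
    ⟨mm_rows d3 (mm_mul h.dE d4 rfl), ?_⟩, ?_, ?_, ⟨fromBlocks 0 (ρ * E) (E * θ) 0,
      mm_blocks (j := 0 - 3) (zero_mem _) (mm_mul d6 h.dE rfl) (mm_mul h.dE d5 rfl) (zero_mem _),
      ?_⟩, ⟨u + u', add_mem d7 d8, ?_⟩⟩
  · rw [mul_fromCols, fromCols_mul_fromBlocks, Matrix.mul_zero, Matrix.mul_zero, zero_add, add_zero,
      Matrix.mul_assoc, h.Eψ hW, k1, ← Matrix.mul_assoc d, ← c1, Matrix.mul_assoc, φE]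
  · rw [fromRows_mul, fromBlocks_mul_fromRows, Matrix.zero_mul, Matrix.zero_mul, zero_add, add_zero,
      φE', k2, c2]
  · rw [fromCols_mul_fromBlocks, Matrix.mul_zero, Matrix.mul_zero, zero_add, add_zero, e1,
      Matrix.mul_assoc, EE]
  · rw [fromBlocks_mul_fromRows, Matrix.zero_mul, Matrix.zero_mul, zero_add, add_zero, e2, EE']
  · rw [fromRows_mul_fromCols, sub_eq_iff_eq_add.1 h1, sub_eq_iff_eq_add.1 k3, ← Matrix.mul_assoc β,
      z1, Matrix.mul_assoc E β', z2, sub_eq_iff_eq_add]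
    simp only [fromBlocks_multiply, fromBlocks_add, Matrix.mul_zero, Matrix.zero_mul, zero_add,
      add_zero, φE', Matrix.mul_assoc ρ, h.Eψ hW]
  · rw [fromCols_mul_fromRows, sub_eq_iff_eq_add.1 h2, sub_eq_iff_eq_add.1 k4, Matrix.mul_add,
      Matrix.add_mul]
    abel

/-- The cokernel of `φ` is stably equivalent to the cokernel of `d`. -/
def Stb (W : S6) (p : ι → ℤ) (q : κ → ℤ) [DecidableEq ι] (φ : Matrix ι κ S6) (t : τ → ℤ)
    (d : Matrix τ τ S6) : Prop :=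
  ∃ α ∈ MM p t 0, ∃ α' ∈ MM q t 0, ∃ β ∈ MM t p 0, ∃ β' ∈ MM t q 0, ∃ θ ∈ MM p q (-3),
    ∃ ρ ∈ MM p p 0, ∃ ρ' ∈ MM q p (-3), ∃ u ∈ MM t t (-3), ∃ u' ∈ MM t t (-3),
      α * φ = d * α' ∧ β * d = φ * β' ∧ β * α - 1 = φ * θ + ρ ∧ ρ * φ = W • ρ' ∧
        α * β - 1 = d * u + u' * d

/-- the even part of the cokernel, transported along `a₀, b₀, a₁, b₁` -/
theorem Stb.toPE [DecidableEq ι] [DecidableEq κ] {φ : Matrix ι κ S6} {d : Matrix τ τ S6}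
    (h : Stb W p q φ t d) (hW : W ≠ 0) (hφ : φ ∈ MM q p 3) (hd : IsMF W t d)
    {a₀ : Matrix μ ι S6} {b₀ : Matrix ι μ S6} {a₁ : Matrix ν κ S6} {b₁ : Matrix κ ν S6}
    (h0 : a₀ ∈ MM p r 0) (h1 : b₀ ∈ MM r p 0) (h2 : a₁ ∈ MM q s 0) (h3 : b₁ ∈ MM s q 0)
    (k0 : b₀ * a₀ = cM (pe p 0)) (k1 : b₁ * a₁ = cM (pe q 1)) (k2 : a₀ * cM (pe p 0) = a₀)
    (k3 : a₁ * cM (pe q 1) = a₁) {ψ : Matrix ν μ S6} {E : Matrix ν ν S6}
    (hs : Sol W r s (a₀ * b₀) (a₀ * φ * b₁) ψ E) :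
    PE (Sum.elim r s) (fromBlocks (a₀ * b₀) 0 0 E) (fromBlocks 0 (a₀ * φ * b₁) ψ 0) t d := by
  obtain ⟨α, d1, α', d2, β, d3, β', d4, θ, d5, ρ, d6, ρ', d7, u, d8, u', d9, c1, c2, c3, c4, c5⟩ := h
  have m0 := (pe_blk (p := p) 0).mm
  have m1 := (pe_blk (p := q) 1).mm
  have mt := (pe_blk (p := t) 0).mm
  have ba : ∀ {σ : Type} (x : Matrix ι σ S6), b₀ * (a₀ * x) = cM (pe p 0) * x := fun x => by
    rw [← Matrix.mul_assoc, k0]
  have ba' : ∀ {σ : Type} (x : Matrix κ σ S6), b₁ * (a₁ * x) = cM (pe q 1) * x := fun x => by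
    rw [← Matrix.mul_assoc, k1]
  have ap : ∀ {σ : Type} (x : Matrix ι σ S6), a₀ * (cM (pe p 0) * x) = a₀ * x := fun x => by
    rw [← Matrix.mul_assoc, k2]
  have pp : ∀ {σ : Type} (x : Matrix ι σ S6), cM (pe p 0) * (cM (pe p 0) * x) = cM (pe p 0) * x :=
    fun x => by rw [← Matrix.mul_assoc, ← cM_mul, pe_pe]
  have pφ : ∀ {σ : Type} (x : Matrix κ σ S6), cM (pe p 0) * (φ * x) = φ * (cM (pe q 1) * x) :=
    fun x => by rw [← Matrix.mul_assoc, pe_comm hφ (a := 1) (by decide), Matrix.mul_assoc]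
  have he : a₀ * b₀ * (a₀ * φ * b₁) = a₀ * φ * b₁ := by simp only [Matrix.mul_assoc, ba, ap]
  have hρ : a₀ * ρ' * cM (pe q 1) * b₁ * ψ = a₀ * ρ * cM (pe p 0) * b₀ := smul_canc hW (by
    have := congrArg (a₀ * ρ * cM (pe p 0) * b₀ * ·) hs.l
    simp only [Matrix.mul_smul, Matrix.mul_assoc, ba, pp] at this
    rw [Matrix.mul_assoc _ _ b₀, Matrix.mul_assoc a₀ ρ, ← this, pφ, ← Matrix.mul_assoc ρ, c4]
    simp only [Matrix.mul_smul, Matrix.smul_mul, Matrix.mul_assoc])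
  have dπ : cM (pe t 1) * d = d * cM (pe t 0) := pe_comm hd.deg (by decide)
  have π1 : cM (pe t 1) = 1 - cM (pe t 0) := by
    rw [← cM_one, ← pe_add (p := t), cM_add, add_sub_cancel_left]
  refine hs.toPE hW he hd (α := α * cM (pe p 0) * b₀) (α' := α' * cM (pe q 1) * b₁) (β := a₀ * β)
    (β' := a₁ * β') (θ := a₁ * θ * cM (pe p 0) * b₀) (ρ := a₀ * ρ' * cM (pe q 1) * b₁)
    (u := u * cM (pe t 0)) (u' := u' * cM (pe t 1)) (π := cM (pe t 0))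
    (mm_mul (mm_mul d1 m0 rfl) h1 rfl) (mm_mul (mm_mul d2 m1 rfl) h3 rfl) (mm_mul h0 d3 rfl)
    (mm_mul h2 d4 rfl) (mm_mul (mm_mul (mm_mul h2 d5 rfl) m0 rfl) h1 rfl)
    (mm_mul (mm_mul (mm_mul h0 d7 rfl) m1 rfl) h3 rfl) (mm_mul d8 mt rfl)
    (mm_mul d9 (pe_blk 1).mm rfl) ?_ ?_ ?_ ?_ ?_ ?_ ?_ ?_ ?_ ?_
  · simp only [Matrix.mul_assoc, ba, pp]
    rw [pφ, ← Matrix.mul_assoc, c1, Matrix.mul_assoc]
  · simp only [Matrix.mul_assoc, ba', c2, ← pφ, ap]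
  · have := congrArg (a₀ * · * (cM (pe p 0) * b₀)) c3
    simp only [Matrix.mul_sub, Matrix.sub_mul, Matrix.mul_add, Matrix.add_mul, Matrix.mul_one,
      Matrix.mul_assoc, ap] at this
    rw [hρ]
    simp only [Matrix.mul_assoc, ba', ← pφ, ap, this]
  · have := congrArg (· * cM (pe t 0)) c5
    simp only [Matrix.sub_mul, Matrix.add_mul, Matrix.one_mul, Matrix.mul_assoc] at this
    simp only [Matrix.mul_assoc, ba, pp, dπ, ← this]
    rw [pe_comm d3 (a := 0) (by decide)]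
  · rw [← π1, pe_comm hd.deg (a := 1) (by decide)]
  · simp only [Matrix.mul_assoc, ba, pp]
  · simp only [Matrix.mul_assoc, ba, ap]
  · simp only [Matrix.mul_assoc, ba, ap]
  · rw [Matrix.mul_assoc α', Matrix.mul_assoc a₀, ← ap, ← Matrix.mul_assoc β,
      ← Matrix.mul_assoc (cM _), pe_comm (mm_mul d3 d2 rfl) (a := 0) (by decide), Matrix.mul_assoc,
      ← Matrix.mul_assoc (cM _), ← cM_mul, pe_01, cM_zero, Matrix.zero_mul, Matrix.mul_zero,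
      Matrix.mul_zero]
  · rw [Matrix.mul_assoc α, Matrix.mul_assoc a₁, ← k3, Matrix.mul_assoc a₁, ← Matrix.mul_assoc β',
      ← Matrix.mul_assoc (cM _), pe_comm (mm_mul d4 d1 rfl) (a := 1) (by decide), Matrix.mul_assoc,
      ← Matrix.mul_assoc (cM _), ← cM_mul, pe_10, cM_zero, Matrix.zero_mul, Matrix.mul_zero,
      Matrix.mul_zero]

end Vale.Agent.P287T.Gb
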