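import Vale.Agent.P287T.Fa.Defs

/-!
# Invariant continuous selections on a cone, line bundles as rank one projectors
-/

set_option linter.unusedSectionVars false

open Filter Topology Set
open scoped ComplexConjugate

noncomputable section

namespace Vale.Agent.P287T.Gb

open Fa

variable {ν : ℕ} {Z : Set (Fin ν → ℂ)}

/-- a punctured cone -/
structure Cn (Z : Set (Fin ν → ℂ)) : Prop where
  ne : ∀ z ∈ Z, z ≠ 0
  smul : ∀ z ∈ Z, ∀ c : ℂ, c ≠ 0 → c • z ∈ Z

/-- the square of the norm -/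
def nn (z : Fin ν → ℂ) : ℂ := ∑ j, z j * conj (z j)

theorem nn_ne {z : Fin ν → ℂ} (h : z ≠ 0) : nn z ≠ 0 := fun e => by
  simp only [nn, Complex.mul_conj, ← Complex.ofReal_sum, Complex.ofReal_eq_zero] at e
  exact h (funext fun j => Complex.normSq_eq_zero.1 ((Finset.sum_eq_zero_iff_of_nonneg
    fun _ _ => Complex.normSq_nonneg _).1 e j (Finset.mem_univ j)))

theorem nn_smul (c : ℂ) (z : Fin ν → ℂ) : nn (c • z) = c * conj c * nn z := by
  simp only [nn, Pi.smul_apply, smul_eq_mul, map_mul, Finset.mul_sum]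
  exact Finset.sum_congr rfl fun j _ => by ring

theorem cont_nn : Continuous (nn : (Fin ν → ℂ) → ℂ) :=
  continuous_finsetSum _ fun j _ =>
    (continuous_apply j).mul (Complex.continuous_conj.comp (continuous_apply j))

/-- the orthogonal projection onto the line through `z` -/
def pj (z : Fin ν → ℂ) : Fin ν → Fin ν → ℂ := fun i j => z i * conj (z j) / nn z

theorem pj_smul {c : ℂ} (hc : c ≠ 0) (z : Fin ν → ℂ) : pj (c • z) = pj z := by
  funext i j
  have : conj c ≠ 0 := (map_ne_zero _).2 hc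
  simp only [pj, nn_smul, Pi.smul_apply, smul_eq_mul, map_mul]
  rw [← mul_div_mul_left (z i * conj (z j)) (nn z) (mul_ne_zero hc this)]
  ring

theorem pj_ap (z w : Fin ν → ℂ) :
    (fun i => ∑ j, pj z i j * w j) = ((∑ j, conj (z j) * w j) / nn z) • z := by
  funext i
  simp only [pj, Pi.smul_apply, smul_eq_mul, Finset.sum_div, Finset.sum_mul]
  exact Finset.sum_congr rfl fun j _ => by ring

theorem Cn.c_ne (hZ : Cn Z) {z z' : Z} {c : ℂ} (h : z'.1 = c • z.1) : c ≠ 0 := by
  rintro rfl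
  exact hZ.ne _ z'.2 (h.trans (zero_smul _ _))

theorem Cn.cont_pj (hZ : Cn Z) : Continuous fun z : Z => pj z.1 :=
  continuous_pi fun i => continuous_pi fun j =>
    (((continuous_apply i).comp continuous_subtype_val).mul (Complex.continuous_conj.comp
      ((continuous_apply j).comp continuous_subtype_val))).div
      (cont_nn.comp continuous_subtype_val) fun z => nn_ne (hZ.ne _ z.2)

/-- **Invariant selections.** -/
theorem Cn.exists_inv (hZ : Cn Z) {E : Type} [AddCommGroup E] [Module ℂ E] [TopologicalSpace E]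
    [ContinuousAdd E] [ContinuousSMul ℂ E] {t : Z → Set E}
    (ha : ∀ z, ∀ x ∈ t z, ∀ y ∈ t z, ∀ a b : ℂ, a + b = 1 → a • x + b • y ∈ t z)
    (hi : ∀ (z z' : Z) (c : ℂ), z'.1 = c • z.1 → t z' = t z)
    (hl : ∀ z : Z, ∃ U ∈ 𝓝 z, ∃ g : Z → E, ContinuousOn g U ∧ ∀ y ∈ U, g y ∈ t y) :
    ∃ g : Z → E, Continuous g ∧ (∀ z, g z ∈ t z) ∧
      ∀ (z z' : Z) (c : ℂ), z'.1 = c • z.1 → g z' = g z := by
  classical
  have : ContinuousSMul ℝ E :=
    ⟨(Complex.continuous_ofReal.comp continuous_fst).smul continuous_snd⟩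
  obtain ⟨G, hG⟩ := exists_continuous_forall_mem_convex_of_local
    (X := range fun z : Z => pj z.1) (E := E) (t := fun P => {u | ∀ z : Z, pj z.1 = P.1 → u ∈ t z})
    (fun P x hx y hy a b _ _ e z k => ha z x (hx z k) y (hy z k) a b (by exact_mod_cast e)) (by
      rintro ⟨_, z₀, rfl⟩
      obtain ⟨U, hU, g, cg, hg⟩ := hl z₀
      let y : (range fun z : Z => pj z.1) → Fin ν → ℂ := fun P i => ∑ j, P.1 i j * z₀.1 j
      have cy : Continuous y := continuous_pi fun i => continuous_finsetSum _ fun j _ =>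
        ((continuous_apply_apply i j).comp continuous_subtype_val).mul continuous_const
      have y0 : y ⟨_, z₀, rfl⟩ = z₀.1 := (pj_ap _ _).trans (by
        rw [show (∑ j, conj (z₀.1 j) * z₀.1 j) = nn z₀.1 from
          Finset.sum_congr rfl fun _ _ => mul_comm _ _, div_self (nn_ne (hZ.ne _ z₀.2)), one_smul])
      have y1 : ∀ P, y P ≠ 0 → y P ∈ Z := by
        rintro ⟨_, z, rfl⟩ k
        have e : y ⟨_, z, rfl⟩ = _ := pj_ap z.1 z₀.1
        exact e ▸ hZ.smul _ z.2 _ fun c => k (e.trans (c ▸ zero_smul _ _))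
      let y' : (range fun z : Z => pj z.1) → Z := fun P => if h : y P ∈ Z then ⟨_, h⟩ else z₀
      have y2 : ∀ P, y P ≠ 0 → (y' P).1 = y P := fun P k => by simp only [y', dif_pos (y1 P k)]
      have o : IsOpen {P | y P ≠ 0} := isOpen_ne_fun cy continuous_const
      have m0 : {P | y P ≠ 0} ∈ 𝓝 (⟨_, z₀, rfl⟩ : range fun z : Z => pj z.1) :=
        o.mem_nhds (show y _ ≠ 0 from y0 ▸ hZ.ne _ z₀.2)
      have c' : ContinuousOn y' {P | y P ≠ 0} :=
        IsInducing.subtypeVal.continuousOn_iff.2 (cy.continuousOn.congr y2)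
      have y3 : y' ⟨_, z₀, rfl⟩ = z₀ := Subtype.ext ((y2 _ (mem_of_mem_nhds m0)).trans y0)
      refine ⟨_, inter_mem m0 (c'.continuousAt m0 (y3.symm ▸ hU)), g ∘ y',
        cg.comp (c'.mono inter_subset_left) fun _ k => k.2, fun P k z e => ?_⟩
      have := (y2 P k.1).trans (show y P = _ from e ▸ pj_ap z.1 z₀.1)
      exact hi z _ _ this ▸ hg _ k.2)
  refine ⟨fun z => G ⟨_, z, rfl⟩, G.continuous.comp (hZ.cont_pj.subtype_mk _),
    fun z => hG _ z rfl, fun z z' c e => congrArg G (Subtype.ext ?_)⟩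
  exact (congrArg pj e).trans (pj_smul (hZ.c_ne e) _)

variable {ι κ : Type} [Fintype ι] [Fintype κ] [DecidableEq ι]

/-- the diagonal matrix of the weights -/
def dg (c : ℂ) (m : ι → ℕ) : Matrix ι ι ℂ := Matrix.diagonal fun i => c ^ m i

/-- The sum of the line bundles `O(m i)` as a direct summand of a trivial bundle. -/
structure Tw (q : ι → ℤ) (m : ι → ℕ) (q' : κ → ℤ) (A : Z → Matrix κ ι ℂ)
    (B : Z → Matrix ι κ ℂ) : Prop where
  cA : Continuous A
  cB : Continuous B
  bA : ∀ z, Blk q q' (A z)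
  bB : ∀ z, Blk q' q (B z)
  one : ∀ z, B z * A z = 1
  eA : ∀ (z z' : Z) (c : ℂ), z'.1 = c • z.1 → A z' * dg c m = A z
  eB : ∀ (z z' : Z) (c : ℂ), z'.1 = c • z.1 → B z' = dg c m * B z

theorem Cn.exists_tw (hZ : Cn Z) (q : ι → ℤ) (m : ι → ℕ) :
    ∃ (n : ℕ) (q' : Fin n → ℤ) (A : Z → Matrix (Fin n) ι ℂ) (B : Z → Matrix ι (Fin n) ℂ),
      Tw q m q' A B := by
  classical
  obtain ⟨n, ⟨σ⟩⟩ := Finite.exists_equiv_fin (Σ i : ι, (Fin (m i) → Fin ν))
  let w : Z → (Σ i : ι, (Fin (m i) → Fin ν)) → ℂ := fun z k => ∏ l, z.1 (k.2 l)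
  have cw : ∀ k, Continuous fun z => w z k := fun k => continuous_finsetProd _ fun l _ =>
    (continuous_apply _).comp continuous_subtype_val
  have ew : ∀ (z z' : Z) (c : ℂ), z'.1 = c • z.1 → ∀ k, w z' k = c ^ m k.1 * w z k :=
    fun z z' c e k => by simp [w, e, Finset.prod_mul_distrib]
  have n0 : ∀ z : Z, nn z.1 ≠ 0 := fun z => nn_ne (hZ.ne _ z.2)
  refine ⟨n, fun k => q (σ.symm k).1,
    fun z => .of fun k i =>
      if (σ.symm k).1 = i then conj (w z (σ.symm k)) / nn z.1 ^ m i else 0,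
    fun z => .of fun i k => if (σ.symm k).1 = i then w z (σ.symm k) else 0,
    continuous_matrix fun k i => ?_, continuous_matrix fun i k => ?_,
    fun z k i h => if_neg fun e => h (congrArg q e),
    fun z i k h => if_neg fun e => h (congrArg q e).symm, fun z => ?_, fun z z' c e => ?_,
    fun z z' c e => ?_⟩
  · simp only [Matrix.of_apply]
    split_ifs
    · exact (Complex.continuous_conj.comp (cw _)).div
        ((cont_nn.comp continuous_subtype_val).pow _) fun z => pow_ne_zero _ (n0 z)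
    · exact continuous_const
  · simp only [Matrix.of_apply]
    split_ifs
    exacts [cw _, continuous_const]
  · ext i j
    rw [Matrix.mul_apply, ← σ.sum_comp, Fintype.sum_sigma, Finset.sum_eq_single i
      (fun b _ h => Finset.sum_eq_zero fun I _ => by simp [h]) (by simp)]
    simp only [Matrix.of_apply, Equiv.symm_apply_apply, if_true, Matrix.one_apply]
    split_ifs with h
    · subst h
      simp only [w, ← mul_div_assoc, ← Finset.sum_div, map_prod, ← Finset.prod_mul_distrib]
      rw [div_eq_one_iff_eq (pow_ne_zero _ (n0 z)), nn, Fintype.sum_pow]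
    · simp
  · ext k i
    have c0 := hZ.c_ne e
    have c1 : conj c ≠ 0 := (map_ne_zero _).2 c0
    have := n0 z
    simp only [dg, Matrix.mul_diagonal, Matrix.of_apply, ew z z' c e, e, nn_smul]
    split_ifs with h
    · subst h
      simp only [map_mul, map_pow, mul_pow]
      field_simp
    · exact zero_mul _
  · ext i k
    simp only [dg, Matrix.diagonal_mul, Matrix.of_apply, ew z z' c e]
    split_ifs with h
    · rw [h]
    · exact (mul_zero _).symm

end Vale.Agent.P287T.Gb
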