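import Vale.Agent.P287T.Gb.Inv
import Vale.Agent.P287T.Gb.He
import Vale.Agent.P287T.Rr.Defs

/-!
# The global continuous family attached to an equivariant presentation over a cone
-/

set_option linter.unusedSectionVars false

open MvPolynomial Matrix Filter Topology
open scoped Matrix.Norms.Operator

noncomputable section

namespace Vale.Agent.P287T.Gb

open Fa Cy P287Z.O P287Z.O.L

variable {ι κ μ : Type} [Fintype ι] [Fintype κ] [Fintype μ] [DecidableEq ι] [DecidableEq κ]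
  {p : ι → ℤ} {q : κ → ℤ} {W : S6} {ν : ℕ} {Z : Set (Fin ν → ℂ)}

theorem evM_cM (x : Fin 6 → ℂ) (a : Matrix κ ι ℂ) : Rr.evM x (cM a) = a :=
  Matrix.ext fun _ _ => eval_C _

theorem evM_smul (x : Fin 6 → ℂ) (f : S6) (a : Matrix κ ι S6) :
    Rr.evM x (f • a) = eval x f • Rr.evM x a := Matrix.ext fun _ _ => map_mul (eval x) _ _

theorem der_mul (k : Fin 6) (a : Matrix μ κ S6) (b : Matrix κ ι S6) :
    (a * b).map (pderiv k) = a * b.map (pderiv k) + a.map (pderiv k) * b := by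
  ext1 i j
  simp only [Matrix.mul_apply, Matrix.map_apply, Matrix.add_apply, map_sum, Derivation.leibniz,
    smul_eq_mul, Finset.sum_add_distrib, mul_comm (b _ j)]

theorem pe_sum (a : ℤ) : pe (Sum.elim p q) a = fromBlocks (pe p a) 0 0 (pe q a) := by
  rw [pe, pe, pe, fromBlocks_diagonal]
  exact congrArg diagonal (funext fun i => by cases i <;> rfl)

theorem cM_rows (a : Matrix ι μ ℂ) : cM (fromRows a (0 : Matrix κ μ ℂ)) = fromRows (cM a) 0 := by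
  rw [cM, fromRows_map, ← cM_zero]
  rfl

theorem Sol.φ_odd {e : Matrix ι ι ℂ} {φ : Matrix ι κ S6} {ψ : Matrix κ ι S6} {E : Matrix κ κ S6}
    (_ : Sol W p q (cM e) φ ψ E) (he : cM e * φ = φ) (hφ : φ ∈ MM q p 3) (h0 : pe p 0 * e = e) :
    φ * cM (pe q 1) = φ := by
  rw [← pe_comm hφ (b := 0) (by decide), ← he, ← Matrix.mul_assoc, ← cM_mul, h0]

theorem Sol.f_odd {e : Matrix ι ι ℂ} {f : Matrix κ κ ℂ} {φ : Matrix ι κ S6} {ψ : Matrix κ ι S6}
    (h : Sol W p q (cM e) φ ψ (cM f)) (hW : W ≠ 0) (he : cM e * φ = φ) (hφ : φ ∈ MM q p 3)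
    (h0 : pe p 0 * e = e) : f * pe q 1 = f := by
  rw [← c0_cM (f * _), cM_mul, smul_canc hW (show W • (cM f * cM (pe q 1)) = W • cM f by
    rw [← Matrix.smul_mul, ← h.r, Matrix.mul_assoc, h.φ_odd he hφ h0]), c0_cM]

theorem Sol.vf {e : Matrix ι ι ℂ} {f : Matrix κ κ ℂ} {φ : Matrix ι κ S6} {ψ : Matrix κ ι S6}
    (h : Sol W p q (cM e) φ ψ (cM f)) (hW : W ≠ 0) (he : cM e * φ = φ) (hφ : φ ∈ MM q p 3)
    (h0 : pe p 0 * e = e) {x : Fin 6 → ℂ} (hx : eval x W = 0) {k : Fin 6}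
    (hk : eval x (pderiv k W) ≠ 0) (v : ι ⊕ κ → ℂ) :
    v ∈ Rr.Vf (fun i => 2 ∣ Sum.elim p q i + 0) (fromBlocks e 0 0 f)
      (Rr.evM x (fromBlocks 0 φ ψ 0)) ↔ ∃ y, v = Sum.elim (Rr.evM x φ *ᵥ y) 0 := by
  have e0 : Rr.evM x (fromBlocks 0 φ ψ 0) = fromBlocks 0 (Rr.evM x φ) (Rr.evM x ψ) 0 := by
    rw [Rr.evM, fromBlocks_map, Matrix.map_zero _ (map_zero _), Matrix.map_zero _ (map_zero _)]
    rfl
  have e1 : cM (pe p 0) * φ = φ := by rw [← he, ← Matrix.mul_assoc, ← cM_mul, h0]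
  have e2 := h.f_odd hW he hφ h0
  have e3 : e * Rr.evM x φ = Rr.evM x φ := by rw [← evM_cM x e, ← Rr.evM_mul, he]
  have e4 : pe p 0 * Rr.evM x φ = Rr.evM x φ := by rw [← evM_cM x (pe p 0), ← Rr.evM_mul, e1]
  rw [e0, ← Sum.elim_comp_inl_inr v]
  refine ⟨fun ⟨h1, h2, h3⟩ => ?_, fun ⟨y, hy⟩ => hy ▸ ⟨?_, ?_, ?_⟩⟩
  · rw [fromBlocks_mulVec, Sum.elim_comp_inl, Sum.elim_comp_inr, zero_mulVec, zero_mulVec] at h2 h3
    rw [add_zero, zero_add] at h2
    have a1 : e *ᵥ (v ∘ Sum.inl) = v ∘ Sum.inl := funext fun i => congrFun h2 (.inl i)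
    have a2 : f *ᵥ (v ∘ Sum.inr) = v ∘ Sum.inr := funext fun i => congrFun h2 (.inr i)
    have a3 : Rr.evM x ψ *ᵥ (v ∘ Sum.inl) = 0 := funext fun i =>
      (add_zero _).symm.trans (congrFun h3 (.inr i))
    have a4 : pe q 1 *ᵥ (v ∘ Sum.inr) = 0 := funext fun i => by
      rw [pe, mulVec_diagonal]
      split_ifs with u
      · exact mul_eq_zero_of_right _ (h1 (.inr i) (show ¬2 ∣ q i + 0 by omega))
      · exact zero_mul _
    have a5 := congrArg (fun g : Matrix ι ι S6 => Rr.evM x (g.map (pderiv k)) *ᵥ (v ∘ Sum.inl)) h.l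
    have a6 : (W • cM e).map (pderiv k) = pderiv k W • cM e := Matrix.ext fun i j => by
      simp [cM, mul_comm]
    simp only [der_mul, a6, evM_smul, evM_cM, smul_mulVec, a1] at a5
    rw [Rr.evM, Matrix.map_add _ (map_add _), Matrix.map_mul, Matrix.map_mul, add_mulVec,
      ← mulVec_mulVec, ← mulVec_mulVec] at a5
    refine ⟨(eval x (pderiv k W))⁻¹ • (Rr.evM x (ψ.map (pderiv k)) *ᵥ (v ∘ Sum.inl)), ?_⟩
    rw [← a2, ← e2, ← mulVec_mulVec, a4, mulVec_zero, mulVec_smul]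
    refine congrArg (Sum.elim · (0 : κ → ℂ)) ((eq_inv_smul_iff₀ hk).2 (a5.symm.trans ?_))
    exact (congrArg _ ((congrArg _ a3).trans (mulVec_zero _))).trans (add_zero _)
  · rintro (i | i) hi
    · rw [← e4, ← mulVec_mulVec, pe]
      exact (mulVec_diagonal _ _ _).trans (mul_eq_zero_of_left (if_neg hi) _)
    · rfl
  · rw [fromBlocks_mulVec, Sum.elim_comp_inl, Sum.elim_comp_inr, zero_mulVec, mulVec_zero,
      add_zero, add_zero, mulVec_mulVec, e3, zero_mulVec]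
  · rw [fromBlocks_mulVec, Sum.elim_comp_inl, Sum.elim_comp_inr, zero_mulVec, mulVec_zero,
      mulVec_zero, add_zero, add_zero, mulVec_mulVec, ← Rr.evM_mul, h.r, evM_smul, hx, zero_smul,
      zero_mulVec, Sum.elim_zero_zero]

/-- **The input**: an equivariant presentation which is locally completed to a factorization. -/
structure Pre (W : S6) (p : ι → ℤ) (q : κ → ℤ) (m : ι → ℕ) (n : κ → ℕ)
    (φ : Z → Matrix ι κ S6) : Prop where
  hW : V.Hg 6 W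
  ne : W ≠ 0
  deg : ∀ z, φ z ∈ MM q p 3
  cont : Continuous φ
  eqv : ∀ (z z' : Z) (c : ℂ), z'.1 = c • z.1 → φ z' * cM (dg c n) = cM (dg c m) * φ z
  loc : ∀ z : Z, ∃ U ∈ 𝓝 z, ∃ (ψ : Z → Matrix κ ι S6) (E : Z → Matrix κ κ S6),
    ContinuousOn ψ U ∧ ContinuousOn E U ∧ ∀ y ∈ U, Sol W p q 1 (φ y) (ψ y) (E y)

/-- **The output**: an invariant continuous family whose bundle on the cubic is the even part of
the image of `φ`. -/
structure Glb [DecidableEq μ] (W : S6) (p : ι → ℤ) (q : κ → ℤ) (m : ι → ℕ)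
    (φ : Z → Matrix ι κ S6) (r : μ → ℤ) (e : Z → Matrix μ μ ℂ) (D : Z → Matrix μ μ S6) (A : Z → Matrix μ ι ℂ)
    (B : Z → Matrix ι μ ℂ) : Prop where
  pf : PF (fun _ => W) r e D
  ie : ∀ (z z' : Z) (c : ℂ), z'.1 = c • z.1 → e z' = e z
  id : ∀ (z z' : Z) (c : ℂ), z'.1 = c • z.1 → D z' = D z
  he : ∀ z (τ : Type) [Fintype τ] [DecidableEq τ] (t : τ → ℤ) (d : Matrix τ τ S6), IsMF W t d →
    Stb W p q (φ z) t d → PE r (cM (e z)) (D z) t d
  cA : Continuous A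
  cB : Continuous B
  bA : ∀ z, Blk p r (A z)
  bB : ∀ z, Blk r p (B z)
  eA : ∀ (z z' : Z) (c : ℂ), z'.1 = c • z.1 → A z' * dg c m = A z
  eB : ∀ (z z' : Z) (c : ℂ), z'.1 = c • z.1 → B z' = dg c m * B z
  one : ∀ z, B z * A z = pe p 0
  ev : ∀ z, A z * pe p 0 = A z
  e0 : ∀ z, e z * pe r 0 = A z * B z
  im1 : ∀ z, ∃ G ∈ MM r q 0, D z * cM (pe r 1) = cM (A z) * φ z * G
  im2 : ∀ z, ∃ G ∈ MM q r 0, cM (A z) * φ z = D z * G ∧ cM (e z) * G = G ∧ cM (pe r 1) * G = G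
  vf : ∀ z x, eval x W = 0 → (∃ k, eval x (pderiv k W) ≠ 0) → ∀ v,
    v ∈ Rr.Vf (fun i => 2 ∣ r i + 0) (e z) (Rr.evM x (D z)) ↔
      ∃ y, v = A z *ᵥ (Rr.evM x (φ z) *ᵥ y)

theorem Glb.od [DecidableEq μ] {m : ι → ℕ} {φ : Z → Matrix ι κ S6} {r : μ → ℤ}
    {e : Z → Matrix μ μ ℂ} {D : Z → Matrix μ μ S6} {A : Z → Matrix μ ι ℂ} {B : Z → Matrix ι μ ℂ}
    (h : Glb W p q m φ r e D A B) (z : Z) (hφ : φ z ∈ MM q p 3) :
    ∃ α ∈ MM r q 0, ∃ β ∈ MM q r 0,
      cM (B z) * D z * cM (pe r 1) = φ z * cM (pe q 1) * α ∧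
        φ z * cM (pe q 1) = cM (B z) * D z * cM (pe r 1) * β := by
  obtain ⟨G, hG, k⟩ := h.im1 z
  obtain ⟨G', hG', k1, -, k2⟩ := h.im2 z
  have u : cM (B z) * (cM (A z) * φ z) = φ z * cM (pe q 1) := by
    rw [← Matrix.mul_assoc, ← cM_mul, h.one, pe_comm hφ (a := 1) (by decide)]
  exact ⟨G, hG, G', hG', by rw [Matrix.mul_assoc, k, ← Matrix.mul_assoc, u],
    by rw [Matrix.mul_assoc _ _ G', k2, Matrix.mul_assoc, ← k1, u]⟩

theorem pe_dg (a : ℤ) (c : ℂ) (m : ι → ℕ) : pe p a * dg c m = dg c m * pe p a := by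
  rw [pe, dg, diagonal_mul_diagonal, diagonal_mul_diagonal]
  exact congrArg diagonal (funext fun _ => mul_comm _ _)

theorem cont_c0 : Continuous (c0 : Matrix κ ι S6 → _) := continuous_id.matrix_map (coL 0).continuous

theorem cont_cj : Continuous (cj : Matrix ι ι S6 → _) :=
  (continuous_id.matrix_mul (continuous_cM.comp cont_c0)).add ((continuous_const.sub
    continuous_id).matrix_mul (continuous_const.sub (continuous_cM.comp cont_c0)))

theorem cont_ci : Continuous (ci p) := continuous_finsetSum _ fun k hk => by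
  clear hk
  induction k with
  | zero => simpa only [pow_zero] using continuous_const
  | succ k ih =>
    simp only [pow_succ]
    exact ih.matrix_mul (continuous_const.sub cont_cj)

theorem co_mul {T α β γ : Type} [TopologicalSpace T] [Fintype β] {U : Set T}
    {a : T → Matrix α β S6} {b : T → Matrix β γ S6} (ha : ContinuousOn a U)
    (hb : ContinuousOn b U) : ContinuousOn (fun t => a t * b t) U :=
  continuousOn_iff_continuous_domRestrict.2
    ((continuousOn_iff_continuous_domRestrict.1 ha).matrix_mul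
      (continuousOn_iff_continuous_domRestrict.1 hb))

/-- **GLOB** -/
theorem Pre.glob {m : ι → ℕ} {n : κ → ℕ} {φ : Z → Matrix ι κ S6} (h : Pre W p q m n φ)
    (hZ : Cn Z) : ∃ (k l : ℕ) (r : Fin k ⊕ Fin l → ℤ) (e : _) (D : _) (A : _) (B : _),
      Glb W p q m φ r e D A B := by
  obtain ⟨k, p', A₀, B₀, t₀⟩ := hZ.exists_tw p m
  obtain ⟨l, q', A₁, B₁, t₁⟩ := hZ.exists_tw q n
  have b0 := fun z => (t₀.bA z).mul (pe_blk 0)
  have b1 := fun z => (t₁.bA z).mul (pe_blk 1)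
  have o0 : ∀ z, B₀ z * (A₀ z * pe p 0) = pe p 0 := fun z => by
    rw [← Matrix.mul_assoc, t₀.one, Matrix.one_mul]
  have k0 : ∀ z, cM (B₀ z) * cM (A₀ z * pe p 0) = cM (pe p 0) := fun z => by rw [← cM_mul, o0]
  have k1 : ∀ z, cM (B₁ z) * cM (A₁ z * pe q 1) = cM (pe q 1) := fun z => by
    rw [← cM_mul, ← Matrix.mul_assoc, t₁.one, Matrix.one_mul]
  have o2 : ∀ z, A₀ z * pe p 0 * pe p 0 = A₀ z * pe p 0 := fun z => by
    rw [Matrix.mul_assoc, pe_pe]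
  have k2 : ∀ z, cM (A₀ z * pe p 0) * cM (pe p 0) = cM (A₀ z * pe p 0) := fun z => by
    rw [← cM_mul, o2]
  have k3 : ∀ z, cM (A₁ z * pe q 1) * cM (pe q 1) = cM (A₁ z * pe q 1) := fun z => by
    rw [← cM_mul, Matrix.mul_assoc, pe_pe]
  have k4 : ∀ z, cM (A₀ z * pe p 0) * φ z * cM (pe q 1) = cM (A₀ z * pe p 0) * φ z := fun z => by
    rw [Matrix.mul_assoc, ← pe_comm (h.deg z) (b := 0) (by decide), ← Matrix.mul_assoc, k2]
  have i0 : ∀ (z z' : Z) (c : ℂ), z'.1 = c • z.1 → A₀ z' * pe p 0 * dg c m = A₀ z * pe p 0 :=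
    fun z z' c u => by rw [Matrix.mul_assoc, pe_dg, ← Matrix.mul_assoc, t₀.eA z z' c u]
  have i1 : ∀ (z z' : Z) (c : ℂ), z'.1 = c • z.1 →
      A₀ z' * pe p 0 * B₀ z' = A₀ z * pe p 0 * B₀ z := fun z z' c u => by
    rw [t₀.eB z z' c u, ← Matrix.mul_assoc, i0 z z' c u]
  have i2 : ∀ (z z' : Z) (c : ℂ), z'.1 = c • z.1 → cM (A₀ z' * pe p 0) * φ z' * cM (B₁ z') =
      cM (A₀ z * pe p 0) * φ z * cM (B₁ z) := fun z z' c u => by
    rw [t₁.eB z z' c u, cM_mul (dg c n), ← Matrix.mul_assoc, Matrix.mul_assoc _ (φ z'),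
      h.eqv z z' c u, ← Matrix.mul_assoc, ← cM_mul, i0 z z' c u]
  have c0' : Continuous fun z => A₀ z * pe p 0 := t₀.cA.matrix_mul continuous_const
  have c1 := continuous_cM.comp c0'
  have c2 := continuous_cM.comp t₀.cB
  have c3 := continuous_cM.comp (t₁.cA.matrix_mul (continuous_const (y := pe q 1)))
  have c4 := continuous_cM.comp t₁.cB
  obtain ⟨g, cg, hg, ig⟩ := hZ.exists_inv
    (E := Matrix (Fin l) (Fin k) S6 × Matrix (Fin l) (Fin l) S6)
    (t := fun z => {u | Sol W p' q' (cM (A₀ z * pe p 0 * B₀ z))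
      (cM (A₀ z * pe p 0) * φ z * cM (B₁ z)) u.1 u.2})
    (fun z x hx y hy a b u => Sol.aff hx hy u) (fun z z' c u => by rw [i1 z z' c u, i2 z z' c u])
    fun z => by
      obtain ⟨U, hU, ψ, E, cψ, cE, hs⟩ := h.loc z
      refine ⟨U, hU, fun y => (cM (A₁ y * pe q 1) * ψ y * cM (B₀ y),
        cM (A₁ y * pe q 1) * E y * cM (B₁ y)), (co_mul (co_mul c3.continuousOn cψ)
          c2.continuousOn).prodMk (co_mul (co_mul c3.continuousOn cE) c4.continuousOn),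
        fun y hy => ?_⟩
      have := (hs y hy).tr (a₀ := cM (A₀ y * pe p 0)) (t₀.bB y).mm (b1 y).mm (t₁.bB y).mm
        (by rw [k1, k4]) (by rw [k0, Matrix.mul_assoc,
          ← pe_comm (hs y hy).dψ (b := 1) (by decide), ← Matrix.mul_assoc, k3])
      rwa [Matrix.mul_one, ← cM_mul] at this
  have he : ∀ z, cM (A₀ z * pe p 0 * B₀ z) * (cM (A₀ z * pe p 0) * φ z * cM (B₁ z)) =
      cM (A₀ z * pe p 0) * φ z * cM (B₁ z) := fun z => by
    rw [← Matrix.mul_assoc, ← Matrix.mul_assoc, ← cM_mul, Matrix.mul_assoc _ (B₀ z), o0, o2]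
  have dE := fun z => Sol.dE (hg z)
  have EE := fun z => Sol.EE (hg z) h.ne (he z)
  have hs : ∀ z, Sol W p' q' (cM (A₀ z * pe p 0 * B₀ z))
      (cM (A₀ z * pe p 0) * φ z * (cM (B₁ z) * cj (g z).2)) (ci q' (g z).2 * (g z).1)
      (cM (c0 (g z).2)) := fun z => by
    have := Sol.tr (hg z) (a₀ := 1) (b₀ := 1) Fa.MM_one (ci_mm (dE z)) (cj_mm (dE z))
      (by rw [cj_ci (dE z) (EE z), Matrix.mul_one]) (by rw [Matrix.mul_one, Matrix.mul_one])
    rwa [Matrix.mul_one, Matrix.one_mul, Matrix.one_mul, Matrix.mul_one, ci_conj (dE z) (EE z),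
      Matrix.mul_assoc _ _ (cj _)] at this
  have he' : ∀ z, cM (A₀ z * pe p 0 * B₀ z) * (cM (A₀ z * pe p 0) * φ z *
      (cM (B₁ z) * cj (g z).2)) = cM (A₀ z * pe p 0) * φ z * (cM (B₁ z) * cj (g z).2) := fun z => by
    rw [← Matrix.mul_assoc _ (cM (B₁ z)), ← Matrix.mul_assoc, he]
  have m3 := fun z => mm_mul (t₁.bB z).mm (cj_mm (dE z)) (add_zero 0)
  have dφ := fun z => mm_mul (mm_mul (b0 z).mm (h.deg z) (zero_add 3)) (m3 z) (add_zero 3)
  have k5 : ∀ z, cM (B₁ z) * cj (g z).2 * (ci q' (g z).2 * cM (A₁ z * pe q 1)) = cM (pe q 1) :=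
    fun z => by rw [Matrix.mul_assoc, ← Matrix.mul_assoc (cj _), cj_ci (dE z) (EE z),
      Matrix.one_mul, k1]
  have p0 : ∀ z, pe p' 0 * (A₀ z * pe p 0 * B₀ z) = A₀ z * pe p 0 * B₀ z := fun z => by
    rw [← Matrix.mul_assoc, ← Matrix.mul_assoc, Blk.pe_comm (t₀.bA z), o2]
  have f1 := fun z => (hs z).f_odd h.ne (he' z) (dφ z) (p0 z)
  refine ⟨k, l, Sum.elim p' q', fun z => fromBlocks (A₀ z * pe p 0 * B₀ z) 0 0 (c0 (g z).2),
    fun z => fromBlocks 0 (cM (A₀ z * pe p 0) * φ z * (cM (B₁ z) * cj (g z).2))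
      (ci q' (g z).2 * (g z).1) 0, fun z => fromRows (A₀ z * pe p 0) 0, fun z => fromCols (B₀ z) 0,
    .of_cont (fun z => (hs z).isPF h.ne (he' z) (dφ z) ((b0 z).mul (t₀.bB z)) (c0_blk (dE z)) (by
      rw [Matrix.mul_assoc, ← Matrix.mul_assoc (B₀ z), o0, ← Matrix.mul_assoc, o2]))
      (fun _ => h.hW) continuous_const
      ((c0'.matrix_mul t₀.cB).matrix_fromBlocks continuous_const continuous_const
        (cont_c0.comp cg.snd))
      (continuous_const.matrix_fromBlocks ((c1.matrix_mul h.cont).matrix_mul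
        (c4.matrix_mul (cont_cj.comp cg.snd))) ((cont_ci.comp cg.snd).matrix_mul cg.fst)
        continuous_const),
    fun z z' c u => by rw [i1 z z' c u, ig z z' c u], fun z z' c u => ?_, fun z τ _ _ t d hd u => ?_,
    continuous_matrix ?_, continuous_matrix ?_, fun z => ?_, fun z => ?_, fun z z' c u => ?_,
    fun z z' c u => ?_, fun z => ?_, fun z => ?_, fun z => ?_,
    fun z => ⟨fromCols 0 (cM (B₁ z) * cj (g z).2), mm_cols (zero_mem _) (m3 z), ?_⟩,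
    fun z => ⟨fromRows 0 (cM (c0 (g z).2) * (ci q' (g z).2 * cM (A₁ z * pe q 1))),
      mm_rows (zero_mem _) (mm_mul (c0_blk (dE z)).mm (mm_mul (ci_mm (dE z)) (b1 z).mm rfl) rfl),
      ?_, ?_, ?_⟩, fun z x hx ⟨j, hj⟩ v => ?_⟩
  · rw [← Matrix.mul_assoc _ (cM (B₁ z')), i2 z z' c u, ig z z' c u, Matrix.mul_assoc _ (cM (B₁ z))]
  · rw [cM_blocks, cM_mul _ (B₀ z)]
    exact u.toPE h.ne (h.deg z) hd (b0 z).mm (t₀.bB z).mm (mm_mul (ci_mm (dE z)) (b1 z).mm rfl)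
      (m3 z) (k0 z) (k5 z) (k2 z) (by rw [Matrix.mul_assoc, k3]) (cM_mul (A₀ z * pe p 0) (B₀ z) ▸ hs z)
  · rintro (i | i) j
    exacts [c0'.matrix_elem i j, continuous_const]
  · rintro i (j | j)
    exacts [t₀.cB.matrix_elem i j, continuous_const]
  · rintro (i | i) j u
    exacts [b0 z i j u, rfl]
  · rintro i (j | j) u
    exacts [t₀.bB z i j u, rfl]
  · rw [fromRows_mul, i0 z z' c u, Matrix.zero_mul]
  · rw [mul_fromCols, t₀.eB z z' c u, Matrix.mul_zero]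
  · rw [fromCols_mul_fromRows, o0, Matrix.mul_zero, add_zero]
  · rw [fromRows_mul, o2, Matrix.zero_mul]
  · have u : c0 (g z).2 * pe q' 0 = 0 := by rw [← f1 z, Matrix.mul_assoc, pe_10, Matrix.mul_zero]
    rw [pe_sum, fromBlocks_multiply, fromRows_mul_fromCols, u,
      ← Blk.pe_comm ((b0 z).mul (t₀.bB z)), p0]
    simp only [Matrix.mul_zero, Matrix.zero_mul, add_zero]
  · have u : ci q' (g z).2 * (g z).1 * cM (pe p' 1) = 0 := by
      rw [← (hs z).e, Matrix.mul_assoc, ← cM_mul, ← Blk.pe_comm ((b0 z).mul (t₀.bB z)), ← p0 z,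
        ← Matrix.mul_assoc (pe p' 1), pe_10, Matrix.zero_mul, cM_zero, Matrix.mul_zero]
    rw [pe_sum, cM_blocks, fromBlocks_multiply, cM_rows, fromRows_mul, fromRows_mul_fromCols,
      (hs z).φ_odd (he' z) (dφ z) (p0 z), u]
    simp only [Matrix.mul_zero, Matrix.zero_mul, add_zero, zero_add]
  · rw [cM_rows, fromRows_mul, fromBlocks_mul_fromRows, ← Matrix.mul_assoc _ (cM (c0 _)),
      (hs z).φE h.ne (he' z), Matrix.mul_assoc (cM _ * φ z) (cM (B₁ z) * _), k5, k4]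
    simp only [Matrix.mul_zero, Matrix.zero_mul, add_zero, zero_add]
  · rw [cM_blocks, fromBlocks_mul_fromRows, ← Matrix.mul_assoc _ (cM (c0 _)) (ci q' _ * _),
      ← Matrix.mul_assoc _ (cM (c0 _)) (ci q' _ * _), (hs z).EE h.ne (he' z)]
    simp only [Matrix.mul_zero, Matrix.zero_mul, add_zero, zero_add]
  · rw [pe_sum, cM_blocks, fromBlocks_mul_fromRows, ← Matrix.mul_assoc (cM (pe q' 1)), ← cM_mul,
      Blk.pe_comm (c0_blk (dE z)), f1]
    simp only [Matrix.mul_zero, Matrix.zero_mul, add_zero, zero_add]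
  · rw [(hs z).vf h.ne (he' z) (dφ z) (p0 z) hx hj]
    simp only [fromRows_mulVec, zero_mulVec]
    refine ⟨fun ⟨y, u⟩ => ⟨Rr.evM x (cM (B₁ z) * cj (g z).2) *ᵥ y, ?_⟩, fun ⟨y, u⟩ =>
      ⟨Rr.evM x (ci q' (g z).2 * cM (A₁ z * pe q 1)) *ᵥ y, ?_⟩⟩
    · rw [u, Rr.evM_mul, Rr.evM_mul, evM_cM, ← mulVec_mulVec, ← mulVec_mulVec]
    · rw [u, mulVec_mulVec y, mulVec_mulVec y, ← Rr.evM_mul,
        Matrix.mul_assoc (cM _ * φ z) (cM (B₁ z) * _), k5, k4, Rr.evM_mul, evM_cM]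

end Vale.Agent.P287T.Gb
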