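import Vale.Agent.P287T.Gb.Main
import Vale.Agent.P287T.Gb.Des
import Vale.Agent.P287T.Psi.Hol
import Vale.Agent.P287T.Au.Alg

/-!
# The global continuous family of a strict model
-/

set_option linter.unusedSectionVars false

open MvPolynomial Matrix Filter Topology
open scoped Matrix.Norms.Operator

noncomputable section

namespace Vale.Agent.P287T.Gb

open Fa Cy Sx Au P287Z.O P287Z.O.L

section raw

variable {R S : Type} [CommRing R] [CommRing S] {ι κ τ μ : Type}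

theorem cg_ex {w : R} {a b : Matrix κ ι R} (h : Cg w a b) : ∃ c : Matrix κ ι R, a = b + w • c := by
  choose c hc using h
  exact ⟨.of c, Matrix.ext fun i l => sub_eq_iff_eq_add'.1 (hc i l)⟩

theorem cg_map {w : R} {a b : Matrix κ ι R} (h : Cg w a b) (f : R →+* S) :
    Cg (f w) (a.map f) (b.map f) := fun i l => by
  rw [Matrix.map_apply, Matrix.map_apply, ← map_sub]
  exact map_dvd f (h i l)

end raw

variable {ι κ τ μ : Type} [Fintype ι] [Fintype κ] [Fintype τ] [Fintype μ] {W : S6}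

theorem mpart_smul (hW : V.Hg 6 W) (p : ι → ℤ) (q : κ → ℤ) (j : ℤ) (u : Matrix κ ι S6) :
    mpart p q j (W • u) = W • mpart p q (j - 6) u := Matrix.ext fun i l =>
  (hpart_mul hW _ _).trans (congrArg (fun n => W * hpart n (u i l)) (by ring))

theorem mm_of_smul (hW : V.Hg 6 W) (h0 : W ≠ 0) {p : ι → ℤ} {q : κ → ℤ} {j k : ℤ}
    {a b c : Matrix κ ι S6} (e : a = b + W • c) (ha : a ∈ MM p q j) (hb : b ∈ MM p q j)
    (hk : j - 6 = k) : c ∈ MM p q k := by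
  have : W • c ∈ MM p q j := by rw [← sub_eq_iff_eq_add'.2 e]; exact sub_mem ha hb
  rw [← smul_canc h0 ((mpart_smul hW p q j c).symm.trans (mpart_self this)), hk]
  exact mpart_mem _ _ _ _

theorem mm_sh {p : ι → ℤ} {q : κ → ℤ} {j k : ℤ} {g : Matrix κ ι S6} (h : g ∈ MM p q j)
    (e : j = k + 3) : g ∈ MM (fun i => p i + 3) q k := fun i l => by
  have := h i l
  rwa [show j + p l - q i = k + (p l + 3) - q i by omega] at this

theorem mm_sh' {p : ι → ℤ} {q : κ → ℤ} {j k : ℤ} {g : Matrix κ ι S6} (h : g ∈ MM p q j)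
    (e : j + 3 = k) : g ∈ MM p (fun i => q i + 3) k := fun i l => by
  have := h i l
  rwa [show j + p l - q i = k + p l - (q i + 3) by omega] at this

variable [DecidableEq ι] [DecidableEq τ]

theorem stb_of (hW : V.Hg 6 W) (h0 : W ≠ 0) {t : τ → ℤ} {p₀ : μ → ℤ} {p : ι → ℤ} {q : κ → ℤ}
    {d s₀ s₁ : Matrix τ τ S6} (hd : IsMF W t d) {δ₀ : Matrix μ ι S6} {δ₁ : Matrix ι κ S6}
    {α₁ : Matrix τ ι S6} {α₂ : Matrix τ κ S6} {β₁ : Matrix ι τ S6} {β₂ : Matrix κ τ S6}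
    {t₀ : Matrix ι μ S6} {t₁ : Matrix κ ι S6} (d1 : δ₀ ∈ MM p p₀ 3) (d2 : δ₁ ∈ MM q p 3)
    (d3 : α₁ ∈ MM p t 0) (d4 : α₂ ∈ MM q t 0) (d5 : β₁ ∈ MM t p 0) (d6 : β₂ ∈ MM t q 0)
    (d7 : s₀ ∈ MM t t (-3)) (d8 : s₁ ∈ MM t t (-3)) (d9 : t₀ ∈ MM p₀ p (-3))
    (d10 : t₁ ∈ MM p q (-3)) (e1 : Cg W (d * α₂) (α₁ * δ₁)) (e2 : Cg W (δ₁ * β₂) (β₁ * d))
    (e3 : Cg W (β₁ * α₁ - 1) (δ₁ * t₁ + t₀ * δ₀)) (e4 : Cg W (δ₀ * δ₁) 0)
    (e5 : Cg W (α₁ * β₁ - 1) (d * s₁ + s₀ * d)) :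
    Stb W p (Sum.elim q fun i => p i + 3) (pc W δ₁) t d := by
  obtain ⟨c₁, e1⟩ := cg_ex e1
  obtain ⟨c₂, e2⟩ := cg_ex e2
  obtain ⟨c₃, e3⟩ := cg_ex e3
  obtain ⟨c₄, e4⟩ := cg_ex e4
  obtain ⟨c₅, e5⟩ := cg_ex e5
  have m1 := mm_of_smul hW h0 e1 (mm_mul hd.deg d4 rfl) (mm_mul d3 d2 rfl) (k := -3) rfl
  have m2 := mm_of_smul hW h0 e2 (mm_mul d2 d6 rfl) (mm_mul d5 hd.deg rfl) (k := -3) rfl
  have m3 := mm_of_smul hW h0 e3 (sub_mem (mm_mul d5 d3 rfl) Fa.MM_one)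
    (add_mem (mm_mul d2 d10 rfl) (mm_mul d9 d1 rfl)) (k := -6) rfl
  have m4 := mm_of_smul hW h0 e4 (mm_mul d1 d2 rfl) (zero_mem _) (k := 0) rfl
  have m5 := mm_of_smul hW h0 e5 (sub_mem (mm_mul d3 d5 rfl) Fa.MM_one)
    (add_mem (mm_mul hd.deg d8 rfl) (mm_mul d7 hd.deg rfl)) (k := -6) rfl
  have m6 := mm_mul d9 d1 (c := 0) rfl
  exact ⟨_, d3, _, mm_cols (sub_mem d4 (mm_mul hd.deg m1 rfl)) (mm_sh (mm_mul hd.deg d3 rfl) rfl),
    _, d5, _, mm_rows d6 (mm_sh' (neg_mem m2) rfl), _, mm_rows d10 (mm_sh' m3 rfl), _, m6,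
    _, mm_cols (mm_mul d9 m4 rfl) (mm_sh m6 rfl), _, add_mem d8 (mm_mul hd.deg m5 rfl), _, d7,
    raw hd.sq e1 e2 e3 e4 e5⟩

section out

variable {B D : Type} [CommRing B] [Algebra ℂ B] [CommRing D] [Algebra ℂ D] [Algebra B D]
  [IsScalarTower ℂ B D] {Γ : Gr B D} {t : τ → ℤ} {d : Matrix τ τ (Px D)} (o : Out Γ W t d)

theorem hg_map {Θ : Type} [CommRing Θ] [Algebra ℂ Θ] {e : Eu Θ}
    (h : ∀ γ : ℤ × ℤ, γ.1 ≠ 0 → e.H γ ≤ ⊥) {γ : ℤ × ℤ} {f : Px Θ} (hf : f ∈ (e.mv wx).H γ)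
    (χ : Θ →+* ℂ) {n : ℤ} (hn : γ.1 = n) : V.Hg n (MvPolynomial.map χ f) :=
  hg_iff.2 fun m hm => (((mem_wx h (c := γ.1) (m := γ.2)).1 hf m).2 fun u => mem_support_iff.1 hm
    (by rw [coeff_map, u, map_zero])).trans hn

theorem map_W (χ : D →ₐ[ℂ] ℂ) (W : S6) :
    MvPolynomial.map (χ : D →+* ℂ) (MvPolynomial.map (algebraMap ℂ D) W) = W := by
  rw [MvPolynomial.map_map, AlgHom.comp_algebraMap]
  exact MvPolynomial.map_id W

theorem W_map : MvPolynomial.map (algebraMap B D) (MvPolynomial.map (algebraMap ℂ B) W) =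
    MvPolynomial.map (algebraMap ℂ D) W := by
  rw [MvPolynomial.map_map, ← IsScalarTower.algebraMap_eq]

theorem δ_mm (n : ℕ) (ε : B →ₐ[ℂ] ℂ) :
    val ε (o.δ n) ∈ MM (fun j => (o.dg (n + 1) j).1) (fun i => (o.dg n i).1) 3 := fun i j =>
  hg_map Γ.chB (o.hδ n i j) _ (by simp only [Prod.fst_sub, Prod.fst_add]; omega)

theorem out_stb (hW : V.Hg 6 W) (h0 : W ≠ 0) (χ : D →ₐ[ℂ] ℂ) (ε : B →ₐ[ℂ] ℂ)
    (hε : ∀ b, χ (algebraMap B D b) = ε b) (hd : IsMF W t (val χ d)) :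
    Stb W (fun i => (o.dg 1 i).1) (Sum.elim (fun j => (o.dg 2 j).1) fun i => (o.dg 1 i).1 + 3)
      (pc W (val ε (o.δ 1))) t (val χ d) := by
  have k : ∀ n, (mm (algebraMap B D) (o.δ n)).map (MvPolynomial.map (χ : D →+* ℂ)) =
      val ε (o.δ n) := fun n => Matrix.ext fun i j =>
    (MvPolynomial.map_map _ _ _).trans (congrArg (fun f => MvPolynomial.map f (o.δ n i j))
      (RingHom.ext hε))
  have e1 := cg_map (o.cα 1) (MvPolynomial.map (χ : D →+* ℂ))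
  have e2 := cg_map (o.cβ 1) (MvPolynomial.map (χ : D →+* ℂ))
  have e3 := cg_map (o.βα 0) (MvPolynomial.map (χ : D →+* ℂ))
  have e4 := cg_map (o.δδ 0) (MvPolynomial.map (ε : B →+* ℂ))
  have e5 := cg_map (o.αβ 0) (MvPolynomial.map (χ : D →+* ℂ))
  simp only [map_W, Matrix.map_mul, k, Matrix.map_sub _ (map_sub _), Matrix.map_add _ (map_add _),
    Matrix.map_one _ (map_zero _) (map_one _), Matrix.map_zero _ (map_zero _)] at e1 e2 e3 e4 e5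
  exact stb_of hW h0 hd (δ_mm o 0 ε) (δ_mm o 1 ε)
    (fun i j => hg_map Γ.chD (o.hα 1 i j) _ (by simp)) (fun i j => hg_map Γ.chD (o.hα 2 i j) _
      (by simp)) (fun i j => hg_map Γ.chD (o.hβ 1 i j) _ (by simp))
    (fun i j => hg_map Γ.chD (o.hβ 2 i j) _ (by simp))
    (fun i j => hg_map Γ.chD (o.hs 0 i j) _ (by ring)) (fun i j => hg_map Γ.chD (o.hs 1 i j) _
      (by ring)) (fun i j => hg_map Γ.chD (o.ht 0 i j) _ (by simp only [Prod.fst_sub]; ring))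
    (fun i j => hg_map Γ.chD (o.ht 1 i j) _ (by simp only [Prod.fst_sub]; ring)) e1 e2 e3 e4 e5

theorem out_sol [Module.Flat B D]
    (hd : d * d = MvPolynomial.map (algebraMap ℂ D) W • (1 : Matrix τ τ (Px D))) (χ : D →ₐ[ℂ] ℂ) :
    ∃ (b : B) (ψ : Matrix _ _ (Px B)) (E : Matrix _ _ (Px B)), χ (algebraMap B D b) ≠ 0 ∧
      ∀ ε : B →ₐ[ℂ] ℂ, pc W (val ε (o.δ 1)) * val ε ψ = ε b • W • (1 : Matrix _ _ S6) ∧
        val ε ψ * pc W (val ε (o.δ 1)) = W • val ε E := by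
  obtain ⟨c₁, e1⟩ := cg_ex (o.cα 1)
  obtain ⟨c₂, e2⟩ := cg_ex (o.cβ 1)
  obtain ⟨c₃, e3⟩ := cg_ex (o.βα 0)
  obtain ⟨c₄, e4⟩ := cg_ex (cg_map (o.δδ 0) (MvPolynomial.map (algebraMap B D)))
  obtain ⟨c₅, e5⟩ := cg_ex (o.αβ 0)
  rw [W_map, Matrix.map_mul, Matrix.map_zero _ (map_zero _)] at e4
  obtain ⟨k1, k2, k3, k4, -⟩ := raw hd e1 e2 e3 e4 e5
  obtain ⟨k5, k6⟩ := sol_of hd k1 k2 k3 k4 (cols_j _ _)
  obtain ⟨b, ψ, E, u0, u1, u2⟩ := desc_sol (χ : D →+* ℂ) (MvPolynomial.map (algebraMap ℂ B) W)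
    (pc (MvPolynomial.map (algebraMap ℂ B) W) (o.δ 1))
    (by rw [cols_map, W_map]; exact k5) (by rw [cols_map, W_map]; exact k6)
  refine ⟨b, ψ, E, u0, fun ε => ?_⟩
  have v1 := congrArg (·.map (MvPolynomial.map (ε : B →+* ℂ))) u1
  have v2 := congrArg (·.map (MvPolynomial.map (ε : B →+* ℂ))) u2
  simp only [Matrix.map_mul, cols_map, map_smul_mat, map_W, map_mul, map_C,
    Matrix.map_one _ (map_zero _) (map_one _)] at v1 v2
  rw [mul_smul, C_smul_mat] at v1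
  exact ⟨v1, v2⟩

end out

theorem sol_loc (hW : V.Hg 6 W) {p : ι → ℤ} {q : κ → ℤ} {φ : Matrix ι κ S6} (hφ : φ ∈ MM q p 3)
    {ψ : Matrix κ ι S6} {E : Matrix κ κ S6} {b : ℂ} (hb : b ≠ 0)
    (h1 : φ * ψ = b • W • (1 : Matrix ι ι S6)) (h2 : ψ * φ = W • E) :
    Sol W p q 1 φ (b⁻¹ • mpart p q 3 ψ) (b⁻¹ • mpart q q 0 E) := by
  have k1 := congrArg (mpart p p 6) h1
  have k2 := congrArg (mpart q q 6) h2
  rw [mpart_mul_left p hφ, mpart_self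
    (Submodule.smul_mem _ _ (Fa.MM_smul hW Fa.MM_one (add_zero 6)))] at k1
  rw [mpart_mul_right q hφ, mpart_smul hW] at k2
  exact ⟨Submodule.smul_mem _ _ (mpart_mem _ _ _ _), Submodule.smul_mem _ _ (mpart_mem _ _ _ _),
    by rw [Matrix.mul_smul, show (3 : ℤ) = 6 - 3 from rfl, k1, inv_smul_smul₀ hb],
    by rw [Matrix.smul_mul, show (3 : ℤ) = 6 - 3 from rfl, k2, smul_comm]; rfl, Matrix.mul_one _⟩

variable {C : Cf W}

theorem cn (C : Cf W) : Cn C.Z :=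
  ⟨fun z hz e => by obtain ⟨j, -, h⟩ := C.pv.sub hz (); exact h (congrFun e j),
    fun z hz c hc => C.pv.inv (fun _ => c) (Pi.isUnit_iff.2 fun _ => hc.isUnit) z hz⟩

theorem evZ_mk {z : Fin C.ν → ℂ} (hz : z ∈ C.Z) (f : MvPolynomial (Fin C.ν) ℂ) :
    Gv.evZ C hz (Ideal.Quotient.mk C.I f) = eval z f := congrFun (aeval_eq_eval z) f

theorem cont_ev (b : C.B) : Continuous fun z : C.Z => Gv.evZ C z.2 b := by
  obtain ⟨f, rfl⟩ := Ideal.Quotient.mk_surjective b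
  simp only [evZ_mk]
  exact (MvPolynomial.continuous_eval f).comp continuous_subtype_val

theorem cont_mp (p : ι → ℤ) (q : κ → ℤ) (j : ℤ) (g : Matrix κ ι (Px C.B)) :
    Continuous fun z : C.Z => mpart p q j (val (Gv.evZ C z.2) g) :=
  (continuous_MM fun _ => mpart_mem _ _ _ _).2 fun i l m => by
    simp only [mpart, Matrix.of_apply, coeff_hpart, val, Matrix.map_apply, coeff_map]
    split_ifs
    exacts [cont_ev _, continuous_const]

theorem ev_smul {T : Cht C} {Γ : Gr C.B T.D} (h : IsGr T Γ) {k : ℤ} {b : C.B}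
    (hb : b ∈ Γ.eB.H (0, k)) {z z' : C.Z} {c : ℂ} (e : z'.1 = c • z.1) {m n : ℕ}
    (hk : k + n = m) : Gv.evZ C z'.2 b * c ^ n = c ^ m * Gv.evZ C z.2 b := by
  obtain ⟨f, rfl, h1, -, h2⟩ := h.lift_B hb
  rw [evZ_mk, evZ_mk, e, Kx.eval_smul h1]
  by_cases u : k < 0
  · simp [h2 u]
  · rw [show m = k.toNat + n by omega, pow_add]
    ring

theorem exists_pre (hW : V.Hg 6 W) (h0 : W ≠ 0) {T : Cht C} {Γ : Gr C.B T.D} (h1 : Gv.Onto T)
    (h2 : IsGr T Γ) (o : Out Γ W C.p T.d) : ∃ m n, Pre W (fun i => (o.dg 1 i).1)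
      (Sum.elim (fun j => (o.dg 2 j).1) fun i => (o.dg 1 i).1 + 3) m n
      fun z : C.Z => pc W (val (Gv.evZ C z.2) (o.δ 1)) := by
  obtain ⟨M, hM⟩ := (Set.finite_range (Sum.elim (fun j => (o.dg 2 j).2)
    fun i => (o.dg 1 i).2)).bddAbove
  have M2 : ∀ j, (o.dg 2 j).2 ≤ M := fun j => hM ⟨.inl j, rfl⟩
  have M1 : ∀ j, (o.dg 1 j).2 ≤ M := fun j => hM ⟨.inr j, rfl⟩
  have dg : ∀ z : C.Z, pc W (val (Gv.evZ C z.2) (o.δ 1)) ∈ MM _ _ 3 := fun z =>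
    mm_cols (δ_mm o 1 _) (mm_sh (Fa.MM_smul hW Fa.MM_one (add_zero 6)) rfl)
  refine ⟨fun i => (M - (o.dg 1 i).2).toNat, Sum.elim (fun j => (M - (o.dg 2 j).2).toNat)
    fun i => (M - (o.dg 1 i).2).toNat, hW, h0, dg, (continuous_MM dg).2 ?_, fun z z' c e => ?_,
    fun z => ?_⟩
  · rintro i (j | j) m
    · simp only [pc, fromCols_apply_inl, val, Matrix.map_apply, coeff_map]
      exact cont_ev _
    · simp only [pc, fromCols_apply_inr]
      exact continuous_const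
  · refine Matrix.ext fun i j => ?_
    rw [Gb.dg, Gb.dg, cM, cM, diagonal_map C_0, diagonal_map C_0, mul_diagonal, diagonal_mul]
    rcases j with j | j
    · refine MvPolynomial.ext _ _ fun m => ?_
      rw [mul_comm, coeff_C_mul, coeff_C_mul, mul_comm]
      simp only [pc, fromCols_apply_inl, val, Matrix.map_apply, coeff_map, Sum.elim_inl]
      refine ev_smul h2 ((Γ.mem_eL (c := _) (m := _)).1 (o.hδ 1 i j) m).1 e ?_
      have := M1 i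
      have := M2 j
      change (o.dg 2 j).2 + 0 - (o.dg 1 i).2 + _ = _
      omega
    · simp only [pc, fromCols_apply_inr, Sum.elim_inr, Matrix.smul_apply, Matrix.one_apply]
      split_ifs with u
      · rw [u, mul_comm]
      · simp
  · obtain ⟨χ, hχ⟩ := h1 z.1 z.2
    have := Gv.flat T
    obtain ⟨b, ψ, E, k1, k2⟩ := out_sol o T.sq χ
    rw [(Gv.π_iff T χ z.2).1 hχ] at k1
    have ci : ContinuousOn (fun y : C.Z => (Gv.evZ C y.2 b)⁻¹) {y | Gv.evZ C y.2 b ≠ 0} :=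
      (cont_ev b).continuousOn.inv₀ fun _ u => u
    exact ⟨_, (isOpen_ne_fun (cont_ev b) continuous_const).mem_nhds k1, _, _,
      ci.smul (cont_mp _ _ _ ψ).continuousOn, ci.smul (cont_mp _ _ _ E).continuousOn,
      fun y hy => sol_loc hW (dg y) hy (k2 _).1 (k2 _).2⟩

open Psi Gl in
/-- **The global family.** -/
theorem exists_fm (hW : V.Hg 6 W) (h0 : W ≠ 0) (h : HasOut C) : ∃ U : Psi.Fm W (SZ C.Z),
    (∀ z : C.Z, ∀ d ∈ C.O z.1, U.At (P269.Quo.mk _ z) C.p d) ∧ U.Hol := by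
  obtain ⟨T, Γ, h1, h2, ⟨o⟩⟩ := h
  obtain ⟨m, n, hp⟩ := exists_pre hW h0 h1 h2 o
  obtain ⟨k, l, r, e, D, A, B, g⟩ := hp.glob (cn C)
  choose Φ hΦ using fun i j => MvPolynomial.map_surjective _
    (Ideal.Quotient.mk_surjective (I := C.I)) (o.δ 1 i j)
  have hφ : ∀ z : C.Z, (Matrix.of Φ).map (MvPolynomial.map (eval z.1)) =
      val (Gv.evZ C z.2) (o.δ 1) := fun z => Matrix.ext fun i j => by
    rw [val, Matrix.map_apply, Matrix.map_apply, ← hΦ, MvPolynomial.map_map]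
    exact congrArg (fun f => MvPolynomial.map f (Φ i j)) (RingHom.ext fun f => (evZ_mk z.2 f).symm)
  refine ⟨⟨_, r, Quot.lift e fun z z' ⟨a, _, u⟩ => (g.ie z z' (a ()) u).symm,
    Quot.lift D fun z z' ⟨a, _, u⟩ => (g.id z z' (a ()) u).symm, Quot.ind g.pf.pf, fun _ => hW,
    fun _ => continuous_const, isQuotientMap_quot_mk.continuous_iff.2 g.pf.ce, fun i j μ =>
      isQuotientMap_quot_mk.continuous_iff.2 (g.pf.cd i j μ)⟩, fun z d hd s q a b u => ?_,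
    _, _, inferInstance, inferInstance, inferInstance, inferInstance, _, _, m,
    fun y => pc W ((Matrix.of Φ).map (MvPolynomial.map (eval y))), B, ?_,
    fun z hz => hφ ⟨z, hz⟩ ▸ hp.deg ⟨z, hz⟩, g.cB, g.bB, g.eB,
    fun z => ⟨A z, g.bA z, g.one z, (g.e0 z).symm⟩, fun z => hφ z ▸ g.od z (hp.deg z)⟩
  · obtain ⟨χ, hχ⟩ := h1 z.1 z.2
    have k1 : val χ T.d ∈ C.O z.1 := hχ ▸ T.fib χ
    have k2 := (C.orb _ z.2).mf _ k1
    obtain ⟨x, hx, x', hx', k3, k4, k5⟩ := ((C.orb _ z.2).conj _ k1 d).1 hd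
    exact ((g.he z _ _ _ k2 (out_stb o hW h0 χ _ ((Gv.π_iff T χ z.2).1 hχ) k2)).he
      (g.pf.pf z) u).trans (HE.of_conj hx hx' k3 k4 k5)
  · rintro z - i (j | j) μ
    · simp only [pc, fromCols_apply_inl, Matrix.map_apply, coeff_map]
      exact AnalyticOnNhd.eval_mvPolynomial _ z trivial
    · simp only [pc, fromCols_apply_inr]
      exact analyticAt_const

end Vale.Agent.P287T.Gb
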